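import Vale.Agent.Lib.P095.Fejer

/-! Blocks and the correlation bound; the fixed point algebra has no characters. -/

namespace Vale.Agent.Lib.P095

open scoped ComplexConjugate

noncomputable section

/-- A block: elements `u k`, `v l` behaving like `g e_{0k}`, `g' e'_{0l}` in a dimension drop algebra
`Z_{2,3}`, where `g², g'²` are functions with `(g²)² + (g'²)² = 1`. -/
structure Blk (F : Type*) [Ring F] [StarRing F] where
  u : Fin 2 → F
  v : Fin 3 → F
  col : (∑ k, ∑ l, star (star (u k) * u l) * (star (u k) * u l))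
      + (∑ k, ∑ l, star (star (u k) * u l) * (star (u k) * u l))
      + (∑ k, ∑ l, star (star (u k) * u l) * (star (u k) * u l))
      + (∑ k, ∑ l, star (star (v k) * v l) * (star (v k) * v l))
      + (∑ k, ∑ l, star (star (v k) * v l) * (star (v k) * v l)) = 1 + 1 + 1 + 1 + 1 + 1
  sq : (∑ k, star (u k) * u k) * (∑ k, star (u k) * u k)
      + (∑ k, star (v k) * v k) * (∑ k, star (v k) * v k) = 1

/-- The index set of the columns. -/
abbrev Gm : Type := (Fin 2 × Fin 2) ⊕ (Fin 3 × Fin 3)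

/-- The weights. -/
def wt : Gm → ℝ
  | Sum.inl _ => 1 / 2
  | Sum.inr _ => 1 / 3

lemma wt_nonneg (c : Gm) : 0 ≤ wt c := by
  rcases c with c | c <;> simp [wt]

section Data

variable {F : Type*} [Ring F] [StarRing F] (B : Blk F)

/-- The left factors. -/
def Blk.a : Gm → F
  | Sum.inl c => B.u c.1
  | Sum.inr c => B.v c.1

/-- The right factors. -/
def Blk.b : Gm → F
  | Sum.inl c => B.u c.2
  | Sum.inr c => B.v c.2

/-- The column. -/
def Blk.x (c : Gm) : F := star (B.a c) * B.b c

/-- The generators, with adjoints. -/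
def Blk.gens : Set F :=
  Set.range B.u ∪ Set.range (fun k => star (B.u k)) ∪ Set.range B.v ∪ Set.range (fun k => star (B.v k))

lemma Blk.gens_finite : B.gens.Finite :=
  (((Set.finite_range _).union (Set.finite_range _)).union (Set.finite_range _)).union
    (Set.finite_range _)

lemma Blk.gens_star {y : F} (hy : y ∈ B.gens) : star y ∈ B.gens := by
  simp only [Blk.gens, Set.mem_union, Set.mem_range] at hy ⊢
  rcases hy with ((⟨k, rfl⟩ | ⟨k, rfl⟩) | ⟨k, rfl⟩) | ⟨k, rfl⟩
  · exact Or.inl (Or.inl (Or.inr ⟨k, rfl⟩))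
  · exact Or.inl (Or.inl (Or.inl ⟨k, by simp⟩))
  · exact Or.inr ⟨k, rfl⟩
  · exact Or.inl (Or.inr ⟨k, by simp⟩)

lemma Blk.a_mem (c : Gm) : B.a c ∈ B.gens := by
  rcases c with c | c
  · exact Or.inl (Or.inl (Or.inl ⟨c.1, rfl⟩))
  · exact Or.inl (Or.inr ⟨c.1, rfl⟩)

lemma Blk.b_mem (c : Gm) : B.b c ∈ B.gens := by
  rcases c with c | c
  · exact Or.inl (Or.inl (Or.inl ⟨c.2, rfl⟩))
  · exact Or.inl (Or.inr ⟨c.2, rfl⟩)

end Data

section Est

variable {F : Type*} [CStarAlgebra F] (B : Blk F)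

lemma Blk.col' : ∑ c, wt c • (star (B.x c) * B.x c) = 1 := by
  have h := B.col
  rw [Fintype.sum_sum_type]
  simp only [Fintype.sum_prod_type, wt, Blk.x, Blk.a, Blk.b]
  simp only [← Finset.smul_sum]
  set U := ∑ k, ∑ l, star (star (B.u k) * B.u l) * (star (B.u k) * B.u l)
  set V := ∑ k, ∑ l, star (star (B.v k) * B.v l) * (star (B.v k) * B.v l)
  have e : (1 / 2 : ℝ) • U + (1 / 3 : ℝ) • V = (1 / 6 : ℝ) • (U + U + U + V + V) := by module
  rw [e, h]
  module

variable {ω : F →ₗ[ℂ] ℂ}

/-- The values of the state on `f`. -/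
lemma norm_sq_add_le (h : IsSt ω) (f₁ f₂ : F) (h₁ : star f₁ = f₁) (h₂ : star f₂ = f₂)
    (hf : f₁ * f₁ + f₂ * f₂ = 1) (y : F) :
    (ω (star y * (f₁ * y))).re ^ 2 + (ω (star y * (f₂ * y))).re ^ 2 ≤ (ω (star y * y)).re ^ 2 := by
  have h1 := h.cs y (f₁ * y)
  have h2 := h.cs y (f₂ * y)
  have e1 : (ω (star y * (f₁ * y))).re ^ 2 ≤ ‖ω (star y * (f₁ * y))‖ ^ 2 := by
    have := Complex.abs_re_le_norm (ω (star y * (f₁ * y)))
    rw [← sq_abs]
    gcongr
  have e2 : (ω (star y * (f₂ * y))).re ^ 2 ≤ ‖ω (star y * (f₂ * y))‖ ^ 2 := by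
    have := Complex.abs_re_le_norm (ω (star y * (f₂ * y)))
    rw [← sq_abs]
    gcongr
  have hY := h.pos y
  have e3 : (ω (star (f₁ * y) * (f₁ * y))).re + (ω (star (f₂ * y) * (f₂ * y))).re
      = (ω (star y * y)).re := by
    have e4 : star (f₁ * y) * (f₁ * y) + star (f₂ * y) * (f₂ * y) = star y * y := by
      rw [star_mul, star_mul, h₁, h₂]
      calc star y * f₁ * (f₁ * y) + star y * f₂ * (f₂ * y) = star y * (f₁ * f₁ + f₂ * f₂) * y := by
            noncomm_ring
        _ = _ := by rw [hf, mul_one]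
    rw [← e4, map_add, Complex.add_re]
  nlinarith

/-- The sum over a block of the products of the two weights. -/
lemma Blk.bound (h : IsSt ω) (y z : F) :
    ∑ c, wt c * ((ω (star (B.a c * y) * (B.a c * y))).re * (ω (star (B.b c * z) * (B.b c * z))).re)
      ≤ (1 / 2) * ((ω (star y * y)).re * (ω (star z * z)).re) := by
  set f₁ := ∑ k, star (B.u k) * B.u k with hf₁
  set f₂ := ∑ k, star (B.v k) * B.v k with hf₂
  have hs₁ : star f₁ = f₁ := by
    rw [hf₁, star_sum]
    refine Finset.sum_congr rfl fun k _ => ?_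
    rw [star_mul, star_star]
  have hs₂ : star f₂ = f₂ := by
    rw [hf₂, star_sum]
    refine Finset.sum_congr rfl fun k _ => ?_
    rw [star_mul, star_star]
  have hp₁ : ∀ t : F, ∑ k, (ω (star (B.u k * t) * (B.u k * t))).re = (ω (star t * (f₁ * t))).re := by
    intro t
    rw [hf₁, Finset.sum_mul, Finset.mul_sum, map_sum, Complex.re_sum]
    refine Finset.sum_congr rfl fun k _ => ?_
    congr 2
    rw [star_mul]
    noncomm_ring
  have hp₂ : ∀ t : F, ∑ k, (ω (star (B.v k * t) * (B.v k * t))).re = (ω (star t * (f₂ * t))).re := by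
    intro t
    rw [hf₂, Finset.sum_mul, Finset.mul_sum, map_sum, Complex.re_sum]
    refine Finset.sum_congr rfl fun k _ => ?_
    congr 2
    rw [star_mul]
    noncomm_ring
  have hnn₁ : ∀ t : F, 0 ≤ (ω (star t * (f₁ * t))).re := fun t => by
    rw [← hp₁]
    exact Finset.sum_nonneg fun k _ => h.pos _
  have hnn₂ : ∀ t : F, 0 ≤ (ω (star t * (f₂ * t))).re := fun t => by
    rw [← hp₂]
    exact Finset.sum_nonneg fun k _ => h.pos _
  have hy := norm_sq_add_le h f₁ f₂ hs₁ hs₂ B.sq y
  have hz := norm_sq_add_le h f₁ f₂ hs₁ hs₂ B.sq z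
  rw [Fintype.sum_sum_type]
  simp only [Fintype.sum_prod_type, wt, Blk.a, Blk.b]
  simp only [← Finset.mul_sum, ← Finset.sum_mul]
  rw [hp₁, hp₂, hp₁, hp₂]
  have hY := h.pos y
  have hZ := h.pos z
  set p₁ := (ω (star y * (f₁ * y))).re
  set p₂ := (ω (star y * (f₂ * y))).re
  set q₁ := (ω (star z * (f₁ * z))).re
  set q₂ := (ω (star z * (f₂ * z))).re
  set Y := (ω (star y * y)).re
  set Z := (ω (star z * z)).re
  have hp₁0 : 0 ≤ p₁ := hnn₁ y
  have hp₂0 : 0 ≤ p₂ := hnn₂ y
  have hq₁0 : 0 ≤ q₁ := hnn₁ z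
  have hq₂0 : 0 ≤ q₂ := hnn₂ z
  have hmain : p₁ * q₁ + p₂ * q₂ ≤ Y * Z := by
    have h3 : (p₁ * q₁ + p₂ * q₂) ^ 2 ≤ (p₁ ^ 2 + p₂ ^ 2) * (q₁ ^ 2 + q₂ ^ 2) := by
      nlinarith [sq_nonneg (p₁ * q₂ - p₂ * q₁)]
    have h4 : (p₁ ^ 2 + p₂ ^ 2) * (q₁ ^ 2 + q₂ ^ 2) ≤ Y ^ 2 * Z ^ 2 := by gcongr
    have h5 : (p₁ * q₁ + p₂ * q₂) ^ 2 ≤ (Y * Z) ^ 2 := by
      rw [mul_pow]
      exact h3.trans h4
    exact abs_le_of_sq_le_sq' h5 (by positivity) |>.2
  have h6 : 0 ≤ p₂ * q₂ := mul_nonneg hp₂0 hq₂0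
  nlinarith

end Est

section Act

variable {F : Type*} [CStarAlgebra F] {G : Type*} [Group G] (a : G → F →⋆ₐ[ℂ] F)

/-- The orbit of the generators of a block. -/
def Blk.orb (B : Blk F) : Set F := {y | ∃ g, ∃ e ∈ B.gens, y = a g e}

/-- The fixed point algebra. -/
def fixSub : StarSubalgebra ℂ F where
  carrier := {x | ∀ g, a g x = x}
  mul_mem' := by
    intro x y hx hy g
    rw [map_mul, hx g, hy g]
  add_mem' := by
    intro x y hx hy g
    rw [map_add, hx g, hy g]
  algebraMap_mem' := by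
    intro r g
    exact AlgHomClass.commutes (a g) r
  star_mem' := by
    intro x hx g
    rw [map_star, hx g]

variable {a}
variable (h1 : ∀ x, a 1 x = x) (hmul : ∀ g h x, a (g * h) x = a g (a h x))

include h1 in
lemma Blk.gens_sub_orb (B : Blk F) {e : F} (he : e ∈ B.gens) : e ∈ B.orb a :=
  ⟨1, e, he, (h1 e).symm⟩

lemma Blk.orb_star (B : Blk F) {y : F} (hy : y ∈ B.orb a) : star y ∈ B.orb a := by
  obtain ⟨g, e, he, rfl⟩ := hy
  exact ⟨g, star e, B.gens_star he, (map_star _ _).symm⟩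

include hmul in
lemma Blk.orb_act (B : Blk F) (g : G) {y : F} (hy : y ∈ B.orb a) : a g y ∈ B.orb a := by
  obtain ⟨h, e, he, rfl⟩ := hy
  exact ⟨g * h, e, he, (hmul g h e).symm⟩

/-- Commuting with the orbit of a block. -/
def CC (B : Blk F) (a : G → F →⋆ₐ[ℂ] F) (X : F) : Prop := ∀ s ∈ B.orb a, s * X = X * s

lemma CC_one (B : Blk F) : CC B a 1 := fun s _ => by simp

lemma CC_mul {B : Blk F} {X Y : F} (hX : CC B a X) (hY : CC B a Y) : CC B a (X * Y) := fun s hs => by
  rw [← mul_assoc, hX s hs, mul_assoc, hY s hs, mul_assoc]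

lemma CC_star {B : Blk F} {X : F} (hX : CC B a X) : CC B a (star X) := fun s hs => by
  have := hX (star s) (B.orb_star hs)
  have h2 := congrArg star this
  simpa [star_mul] using h2.symm

include h1 hmul in
lemma CC_act {B : Blk F} {X : F} (hX : CC B a X) (g : G) : CC B a (a g X) := fun s hs => by
  have hs' := hX (a g⁻¹ s) (B.orb_act hmul g⁻¹ hs)
  have e : a g (a g⁻¹ s) = s := by
    rw [← hmul, mul_inv_cancel, h1]
  calc s * a g X = a g (a g⁻¹ s * X) := by rw [map_mul, e]
    _ = a g (X * a g⁻¹ s) := by rw [hs']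
    _ = _ := by rw [map_mul, e]

variable {B : ℕ → Blk F}
variable (hc : ∀ i j, i ≠ j → ∀ s ∈ (B i).orb a, ∀ t ∈ (B j).orb a, s * t = t * s)

/-- The columns of the blocks. -/
def xx (B : ℕ → Blk F) (i : ℕ) (c : Gm) : F := (B i).x c

include h1 hc in
lemma CC_x {i j : ℕ} (hij : i ≠ j) (c : Gm) : CC (B i) a (xx B j c) := by
  refine CC_mul (CC_star ?_) ?_
  · exact fun s hs => hc i j hij s hs _ ((B j).gens_sub_orb h1 ((B j).a_mem c))
  · exact fun s hs => hc i j hij s hs _ ((B j).gens_sub_orb h1 ((B j).b_mem c))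

include h1 hc in
lemma CC_ps {i : ℕ} (m : ℕ) : ∀ j, i < j → ∀ X ∈ ps (xx B) j m, CC (B i) a X := by
  induction m with
  | zero =>
    rintro j _ X rfl
    exact CC_one _
  | succ m ih =>
    rintro j hj X ⟨c, X', hX', rfl⟩
    exact CC_mul (CC_x h1 hc hj.ne c) (ih (j + 1) (by omega) X' hX')

variable {ω : F →ₗ[ℂ] ℂ}

include h1 hc in
/-- The correlation bound. -/
lemma corr_bound (h : IsSt ω) (m : ℕ) : ∀ (i : ℕ) (y z : F),
    it (xx B) wt i m (fun X => ‖ω (star y * (X * z))‖ ^ 2)
      ≤ (1 / 2) ^ m * ((ω (star y * y)).re * (ω (star z * z)).re) := by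
  induction m with
  | zero =>
    intro i y z
    show ‖ω (star y * (1 * z))‖ ^ 2 ≤ _
    rw [one_mul, pow_zero, one_mul]
    exact h.cs y z
  | succ m ih =>
    intro i y z
    show ∑ c, wt c • it (xx B) wt (i + 1) m _ ≤ _
    have step : ∀ c, wt c • it (xx B) wt (i + 1) m
        (fun X => ‖ω (star y * (xx B i c * X * z))‖ ^ 2) ≤
        (1 / 2) ^ m * (wt c * ((ω (star ((B i).a c * y) * ((B i).a c * y))).re
          * (ω (star ((B i).b c * z) * ((B i).b c * z))).re)) := by
      intro c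
      have e : it (xx B) wt (i + 1) m (fun X => ‖ω (star y * (xx B i c * X * z))‖ ^ 2)
          = it (xx B) wt (i + 1) m
            (fun X => ‖ω (star ((B i).a c * y) * (X * ((B i).b c * z)))‖ ^ 2) := by
        refine it_congr m _ _ _ fun X hX => ?_
        have hb := CC_ps h1 hc m (i + 1) (by omega) X hX ((B i).b c)
          ((B i).gens_sub_orb h1 ((B i).b_mem c))
        have e2 : star y * (xx B i c * X * z) = star ((B i).a c * y) * (X * ((B i).b c * z)) := by
          have e3 : xx B i c = star ((B i).a c) * (B i).b c := rfl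
          rw [e3, star_mul]
          calc star y * (star ((B i).a c) * (B i).b c * X * z)
              = star y * star ((B i).a c) * ((B i).b c * X) * z := by noncomm_ring
            _ = star y * star ((B i).a c) * (X * (B i).b c) * z := by rw [hb]
            _ = _ := by noncomm_ring
        rw [e2]
      rw [e]
      have h3 := ih (i + 1) ((B i).a c * y) ((B i).b c * z)
      have h4 := wt_nonneg c
      calc wt c • it (xx B) wt (i + 1) m _ ≤ wt c • ((1 / 2) ^ m * _) :=
            smul_le_smul_of_nonneg_left h3 h4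
        _ = _ := by rw [smul_eq_mul]; ring
    have hs : ∑ c, wt c • it (xx B) wt (i + 1) m
        (fun X => ‖ω (star y * ((xx B i c * X) * z))‖ ^ 2) ≤ ∑ c, (1 / 2) ^ m * (wt c *
          ((ω (star ((B i).a c * y) * ((B i).a c * y))).re
          * (ω (star ((B i).b c * z) * ((B i).b c * z))).re)) :=
      Finset.sum_le_sum fun c _ => step c
    refine hs.trans ?_
    rw [← Finset.mul_sum]
    have h5 := (B i).bound h y z
    calc (1 / 2) ^ m * _ ≤ (1 / 2) ^ m * ((1 / 2) * ((ω (star y * y)).re * (ω (star z * z)).re)) := by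
          gcongr
      _ = _ := by rw [pow_succ]; ring

/-- The correlation operators. -/
def QQ (a : G → F →⋆ₐ[ℂ] F) (B : ℕ → Blk F) (g : G) (i : ℕ) : F :=
  ∑ c, wt c • (star (xx B i c) * a g (xx B i c))

include h1 hmul hc in
lemma it_eq_PP (g : G) (m : ℕ) :
    ∀ i, it (xx B) wt i m (fun X => star X * a g X) = PP (QQ a B g) i m := by
  induction m with
  | zero =>
    intro i
    show star (1 : F) * a g 1 = 1
    simp
  | succ m ih =>
    intro i
    show ∑ c, wt c • it (xx B) wt (i + 1) m _ = PP (QQ a B g) (i + 1) m * QQ a B g i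
    rw [← ih (i + 1), QQ, Finset.mul_sum]
    refine Finset.sum_congr rfl fun c _ => ?_
    rw [mul_smul_comm]
    congr 1
    have hR : ∀ X ∈ ps (xx B) (i + 1) m, star (xx B i c * X) * a g (xx B i c * X)
        = (star X * a g X) * (star (xx B i c) * a g (xx B i c)) := by
      intro X hX
      have hX' := CC_act h1 hmul (CC_ps (i := i) h1 hc m (i + 1) (by omega) X hX) g
      have hga : ∀ t ∈ (B i).gens, t * a g X = a g X * t := fun t ht =>
        hX' t ((B i).gens_sub_orb h1 ht)
      have hga' : ∀ t ∈ (B i).gens, a g t * a g X = a g X * a g t := fun t ht =>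
        hX' _ ⟨g, t, ht, rfl⟩
      have e1 : star (xx B i c) = star ((B i).b c) * (B i).a c := by
        show star (star ((B i).a c) * (B i).b c) = _
        rw [star_mul, star_star]
      have e2 : a g (xx B i c) = star (a g ((B i).a c)) * a g ((B i).b c) := by
        show a g (star ((B i).a c) * (B i).b c) = _
        rw [map_mul, map_star]
      have h2 := hga _ ((B i).gens_star ((B i).b_mem c))
      have h3 := hga _ ((B i).a_mem c)
      have h4 := hga' _ ((B i).gens_star ((B i).a_mem c))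
      rw [map_star] at h4
      have h5 := hga' _ ((B i).b_mem c)
      rw [map_mul, star_mul, e1, e2]
      calc star X * (star ((B i).b c) * (B i).a c) * (star (a g ((B i).a c)) * a g ((B i).b c) * a g X)
          = star X * (star ((B i).b c) * (B i).a c) * (star (a g ((B i).a c)) * (a g ((B i).b c) * a g X)) := by
            noncomm_ring
        _ = star X * (star ((B i).b c) * (B i).a c) * ((star (a g ((B i).a c)) * a g X) * a g ((B i).b c)) := by
            rw [h5]; noncomm_ring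
        _ = star X * (star ((B i).b c) * ((B i).a c * a g X)) * (star (a g ((B i).a c)) * a g ((B i).b c)) := by
            rw [h4]; noncomm_ring
        _ = star X * ((star ((B i).b c) * a g X) * (B i).a c) * (star (a g ((B i).a c)) * a g ((B i).b c)) := by
            rw [h3]; noncomm_ring
        _ = _ := by
            rw [h2]; noncomm_ring
    rw [it_congr m (i + 1) _ _ hR]
    exact it_map (LinearMap.mulRight ℝ (star (xx B i c) * a g (xx B i c))) m (i + 1)
      (fun X => star X * a g X) |>.symm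

end Act

end

end Vale.Agent.Lib.P095
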