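import Mathlib

/-! The statement-level definitions for the equivariant theorem. -/

universe u v

namespace Vale.Agent.Lib.P095

/-- Unital star-homomorphisms. -/
abbrev Hm (A B : Type u) [CStarAlgebra A] [CStarAlgebra B] : Type u := A →⋆ₐ[ℂ] B

/-- `(σ, φ)` presents `A` as the maximal tensor product of `A` and `Z`: `σ : A → A` and `φ : Z → A`
are commuting unital star-homomorphisms, and every commuting pair of unital star-homomorphisms from
`A` and `Z` to a unital C*-algebra `Y` factors uniquely through `(σ, φ)`. -/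
def IsMax {A Z : Type u} [CStarAlgebra A] [CStarAlgebra Z] (σ : Hm A A) (φ : Hm Z A) : Prop :=
  (∀ a z, σ a * φ z = φ z * σ a) ∧
    ∀ (Y : Type u) [CStarAlgebra Y] (α' : Hm A Y) (β : Hm Z Y),
      (∀ a z, α' a * β z = β z * α' a) →
      ∃! γ : Hm A Y, γ.comp σ = α' ∧ γ.comp φ = β

/-- Actions of a group by automorphisms. -/
abbrev Act (G : Type v) (A : Type u) [Group G] [CStarAlgebra A] : Type (max u v) := G →* (A ≃⋆ₐ[ℂ] A)

/-- A presentation of `A` as `A ⊗_max Z` together with an action `β` of `G` on `A` which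
corresponds to `α ⊗ id_Z`, and a `β`-cocycle of unitaries `w` with `α_g = Ad(w_g) ∘ β_g`. -/
structure CocConj (Z : Type u) {A : Type u} {G : Type v} [CStarAlgebra A] [CStarAlgebra Z] [Group G]
    (α : Act G A) where
  σ : Hm A A
  φ : Hm Z A
  β : Act G A
  w : G → A
  max : IsMax σ φ
  equi : ∀ g a, β g (σ a) = σ (α g a)
  triv : ∀ g z, β g (φ z) = φ z
  uni : ∀ g, star (w g) * w g = 1 ∧ w g * star (w g) = 1
  coc : ∀ g h, w (g * h) = w g * β g (w h)
  con : ∀ g a, α g a = w g * β g a * star (w g)

end Vale.Agent.Lib.P095
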