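import Vale.Agent.Lib.P095.NoChar
import Vale.Agent.Lib.P101.JDP

/-! A block in the dimension drop algebra `Z_{2,3}`. -/

namespace Vale.Agent.Lib.P095

open Vale.Agent.Lib.P101 Vale.Agent.Lib.P101.J
open scoped Kronecker unitInterval

noncomputable section

section Mat

variable {n : ℕ} [NeZero n]

/-- The matrix units of the first row. -/
def ee (k : Fin n) : Matrix (Fin n) (Fin n) ℂ := Matrix.single 0 k 1

lemma ee_star_mul (k l : Fin n) : star (ee k) * ee l = Matrix.single k l 1 := by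
  simp [ee, Matrix.star_eq_conjTranspose, Matrix.conjTranspose_single, Matrix.single_mul_single_same]

lemma ee_rel (k l : Fin n) : star (star (ee k) * ee l) * (star (ee k) * ee l) = Matrix.single l l 1 := by
  rw [ee_star_mul]
  simp [Matrix.star_eq_conjTranspose, Matrix.conjTranspose_single, Matrix.single_mul_single_same]

lemma sum_single_one : ∑ l : Fin n, (Matrix.single l l 1 : Matrix (Fin n) (Fin n) ℂ) = 1 := by
  ext i j
  simp only [Matrix.sum_apply, Matrix.single_apply, Matrix.one_apply]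
  by_cases h : i = j
  · subst h
    simp
  · simp only [h, if_false]
    refine Finset.sum_eq_zero fun l _ => ?_
    rw [if_neg]
    rintro ⟨rfl, rfl⟩
    exact h rfl

lemma ee_sum : ∑ k : Fin n, star (ee k) * ee k = 1 := by
  simp only [ee_star_mul]
  exact sum_single_one

end Mat

section Kron

/-- The first tensor factor. -/
def kr1 (a : Matrix (Fin 2) (Fin 2) ℂ) : MH 2 3 := a ⊗ₖ (1 : Matrix (Fin 3) (Fin 3) ℂ)

/-- The second tensor factor. -/
def kr2 (b : Matrix (Fin 3) (Fin 3) ℂ) : MH 2 3 := (1 : Matrix (Fin 2) (Fin 2) ℂ) ⊗ₖ b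

lemma kr1_mul (a b : Matrix (Fin 2) (Fin 2) ℂ) : kr1 (a * b) = kr1 a * kr1 b := by
  have := Matrix.mul_kronecker_mul a b (1 : Matrix (Fin 3) (Fin 3) ℂ) (1 : Matrix (Fin 3) (Fin 3) ℂ)
  rwa [mul_one] at this

lemma kr2_mul (a b : Matrix (Fin 3) (Fin 3) ℂ) : kr2 (a * b) = kr2 a * kr2 b := by
  have := Matrix.mul_kronecker_mul (1 : Matrix (Fin 2) (Fin 2) ℂ) (1 : Matrix (Fin 2) (Fin 2) ℂ) a b
  rwa [mul_one] at this

lemma kr1_star (a : Matrix (Fin 2) (Fin 2) ℂ) : kr1 (star a) = star (kr1 a) := by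
  simp [kr1, Matrix.star_eq_conjTranspose, Matrix.conjTranspose_kronecker]

lemma kr2_star (a : Matrix (Fin 3) (Fin 3) ℂ) : kr2 (star a) = star (kr2 a) := by
  simp [kr2, Matrix.star_eq_conjTranspose, Matrix.conjTranspose_kronecker]

lemma kr1_one : kr1 1 = 1 := by
  simp [kr1]

lemma kr2_one : kr2 1 = 1 := by
  simp [kr2]

/-- The first tensor factor as an additive map. -/
def kr1A : Matrix (Fin 2) (Fin 2) ℂ →+ MH 2 3 where
  toFun := kr1
  map_zero' := by simp [kr1]
  map_add' a b := by simp [kr1, Matrix.add_kronecker]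

/-- The second tensor factor as an additive map. -/
def kr2A : Matrix (Fin 3) (Fin 3) ℂ →+ MH 2 3 where
  toFun := kr2
  map_zero' := by simp [kr2]
  map_add' a b := by simp [kr2, Matrix.kronecker_add]

lemma kr1_sum {ι : Type*} (s : Finset ι) (f : ι → Matrix (Fin 2) (Fin 2) ℂ) :
    kr1 (∑ i ∈ s, f i) = ∑ i ∈ s, kr1 (f i) := map_sum kr1A f s

lemma kr2_sum {ι : Type*} (s : Finset ι) (f : ι → Matrix (Fin 3) (Fin 3) ℂ) :
    kr2 (∑ i ∈ s, f i) = ∑ i ∈ s, kr2 (f i) := map_sum kr2A f s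

variable {c d : ℂ}

lemma term_eq {R : Type*} [Ring R] [StarRing R] [Algebra ℂ R] [StarModule ℂ R] (hc : star c = c) (x y : R) :
    star (star (c • x) * (c • y)) * (star (c • x) * (c • y))
      = (c * c * (c * c)) • (star (star x * y) * (star x * y)) := by
  have e1 : star (c • x) * (c • y) = (c * c) • (star x * y) := by
    rw [star_smul, hc, smul_mul_smul_comm]
  have hcc : star (c * c) = c * c := by
    rw [star_mul, hc]
  rw [e1, star_smul, hcc, smul_mul_smul_comm]

lemma term_eq' {R : Type*} [Ring R] [StarRing R] [Algebra ℂ R] [StarModule ℂ R] (hc : star c = c) (x : R) :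
    star (c • x) * (c • x) = (c * c) • (star x * x) := by
  rw [star_smul, hc, smul_mul_smul_comm]

lemma col_A (hc : star c = c) :
    ∑ k : Fin 2, ∑ l : Fin 2, star (star (c • kr1 (ee k)) * (c • kr1 (ee l)))
        * (star (c • kr1 (ee k)) * (c • kr1 (ee l)))
      = ((c * c * (c * c)) * 2) • (1 : MH 2 3) := by
  have e : ∀ k l : Fin 2, star (star (c • kr1 (ee k)) * (c • kr1 (ee l)))
        * (star (c • kr1 (ee k)) * (c • kr1 (ee l)))
      = (c * c * (c * c)) • kr1 (Matrix.single l l 1) := by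
    intro k l
    rw [term_eq hc, ← ee_rel k l, kr1_mul, kr1_star, kr1_mul, kr1_star]
  simp only [e, ← Finset.smul_sum, ← kr1_sum, sum_single_one, kr1_one]
  simp only [Finset.sum_const, Finset.card_univ, Fintype.card_fin]
  rw [mul_smul (c * c * (c * c)) 2]
  congr 1
  rw [show (2 : ℂ) = 1 + 1 by norm_num]
  simp only [add_smul, one_smul]
  rw [two_nsmul]

lemma col_B (hc : star c = c) :
    ∑ k : Fin 3, ∑ l : Fin 3, star (star (c • kr2 (ee k)) * (c • kr2 (ee l)))
        * (star (c • kr2 (ee k)) * (c • kr2 (ee l)))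
      = ((c * c * (c * c)) * 3) • (1 : MH 2 3) := by
  have e : ∀ k l : Fin 3, star (star (c • kr2 (ee k)) * (c • kr2 (ee l)))
        * (star (c • kr2 (ee k)) * (c • kr2 (ee l)))
      = (c * c * (c * c)) • kr2 (Matrix.single l l 1) := by
    intro k l
    rw [term_eq hc, ← ee_rel k l, kr2_mul, kr2_star, kr2_mul, kr2_star]
  simp only [e, ← Finset.smul_sum, ← kr2_sum, sum_single_one, kr2_one]
  simp only [Finset.sum_const, Finset.card_univ, Fintype.card_fin]
  rw [mul_smul (c * c * (c * c)) 3]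
  congr 1
  rw [show (3 : ℂ) = 1 + 1 + 1 by norm_num]
  simp only [add_smul, one_smul]
  first
    | rfl
    | (rw [show (3 : ℕ) = 2 + 1 by rfl, add_nsmul, two_nsmul, one_nsmul])

lemma sq_A (hc : star c = c) :
    ∑ k : Fin 2, star (c • kr1 (ee k)) * (c • kr1 (ee k)) = (c * c) • (1 : MH 2 3) := by
  have e : ∀ k : Fin 2, star (c • kr1 (ee k)) * (c • kr1 (ee k))
      = (c * c) • kr1 (star (ee k) * ee k) := by
    intro k
    rw [term_eq' hc, kr1_mul, kr1_star]
  simp only [e, ← Finset.smul_sum, ← kr1_sum, ee_sum, kr1_one]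

lemma sq_B (hc : star c = c) :
    ∑ k : Fin 3, star (c • kr2 (ee k)) * (c • kr2 (ee k)) = (c * c) • (1 : MH 2 3) := by
  have e : ∀ k : Fin 3, star (c • kr2 (ee k)) * (c • kr2 (ee k))
      = (c * c) • kr2 (star (ee k) * ee k) := by
    intro k
    rw [term_eq' hc, kr2_mul, kr2_star]
  simp only [e, ← Finset.smul_sum, ← kr2_sum, ee_sum, kr2_one]

end Kron

section Fun

/-- The first function. -/
def h₁ : C(I, ℝ) := ⟨fun t => Real.sqrt (Real.cos (Real.pi * t / 2)), by fun_prop⟩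

/-- The second function. -/
def h₂ : C(I, ℝ) := ⟨fun t => Real.sqrt (Real.sin (Real.pi * t / 2)), by fun_prop⟩

lemma h₁_one : h₁ 1 = 0 := by
  show Real.sqrt (Real.cos (Real.pi * ((1 : I) : ℝ) / 2)) = 0
  simp

lemma h₂_zero : h₂ 0 = 0 := by
  show Real.sqrt (Real.sin (Real.pi * ((0 : I) : ℝ) / 2)) = 0
  simp

lemma arg_mem (t : I) : Real.pi * (t : ℝ) / 2 ∈ Set.Icc (0 : ℝ) (Real.pi / 2) := by
  have h0 := t.2.1
  have h1 := t.2.2
  have hp := Real.pi_pos
  constructor
  · positivity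
  · nlinarith

lemma h₁_sq (t : I) : h₁ t * h₁ t = Real.cos (Real.pi * t / 2) := by
  show Real.sqrt _ * Real.sqrt _ = _
  have h := arg_mem t
  refine Real.mul_self_sqrt (Real.cos_nonneg_of_mem_Icc ⟨?_, h.2⟩)
  linarith [h.1, Real.pi_pos]

lemma h₂_sq (t : I) : h₂ t * h₂ t = Real.sin (Real.pi * t / 2) := by
  show Real.sqrt _ * Real.sqrt _ = _
  have h := arg_mem t
  exact Real.mul_self_sqrt (Real.sin_nonneg_of_nonneg_of_le_pi h.1 (by linarith [h.2, Real.pi_pos]))

lemma four_add (t : I) : ((h₁ t : ℂ) * (h₁ t : ℂ) * ((h₁ t : ℂ) * (h₁ t : ℂ)))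
    + ((h₂ t : ℂ) * (h₂ t : ℂ) * ((h₂ t : ℂ) * (h₂ t : ℂ))) = 1 := by
  have e := Real.cos_sq_add_sin_sq (Real.pi * (t : ℝ) / 2)
  rw [← h₁_sq, ← h₂_sq] at e
  have : (((h₁ t * h₁ t) ^ 2 + (h₂ t * h₂ t) ^ 2 : ℝ) : ℂ) = 1 := by
    rw [e]
    simp
  push_cast at this
  rw [← this]
  ring

end Fun

section Block

/-- The elements `u`. -/
def dpU (k : Fin 2) : DP 2 3 :=
  bump h₁ (kr1 (ee k)) (fun _ => ⟨ee k, rfl⟩) (fun h => absurd h₁_one h)

/-- The elements `v`. -/
def dpV (k : Fin 3) : DP 2 3 :=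
  bump h₂ (kr2 (ee k)) (fun h => absurd h₂_zero h) (fun _ => ⟨ee k, rfl⟩)

lemma dpU_apply (k : Fin 2) (t : I) : (dpU k).1 t = ((h₁ t : ℝ) : ℂ) • kr1 (ee k) := rfl

lemma dpV_apply (k : Fin 3) (t : I) : (dpV k).1 t = ((h₂ t : ℝ) : ℂ) • kr2 (ee k) := rfl

lemma star_ofReal (r : ℝ) : star ((r : ℝ) : ℂ) = r := by
  simp

/-- The block in the dimension drop algebra. -/
def dpBlk : Blk (DP 2 3) where
  u := dpU
  v := dpV
  col := by
    apply Subtype.ext
    apply ContinuousMap.ext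
    intro t
    have hA := col_A (c := ((h₁ t : ℝ) : ℂ)) (star_ofReal _)
    have hB := col_B (c := ((h₂ t : ℝ) : ℂ)) (star_ofReal _)
    simp only [add_apply', sum_apply', mul_apply', star_apply', one_apply', dpU_apply, dpV_apply]
    rw [hA, hB]
    have h4 := four_add t
    set a := (h₁ t : ℂ) * (h₁ t : ℂ) * ((h₁ t : ℂ) * (h₁ t : ℂ))
    set b := (h₂ t : ℂ) * (h₂ t : ℂ) * ((h₂ t : ℂ) * (h₂ t : ℂ))
    have e : (a * 2) • (1 : MH 2 3) + (a * 2) • 1 + (a * 2) • 1 + (b * 3) • 1 + (b * 3) • 1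
        = (6 * (a + b)) • (1 : MH 2 3) := by
      simp only [← add_smul]
      congr 1
      ring
    rw [e, h4, mul_one]
    have e2 : (6 : ℂ) = 1 + 1 + 1 + 1 + 1 + 1 := by norm_num
    rw [e2]
    simp only [add_smul, one_smul]
  sq := by
    apply Subtype.ext
    apply ContinuousMap.ext
    intro t
    have hA := sq_A (c := ((h₁ t : ℝ) : ℂ)) (star_ofReal _)
    have hB := sq_B (c := ((h₂ t : ℝ) : ℂ)) (star_ofReal _)
    simp only [add_apply', sum_apply', mul_apply', star_apply', one_apply', dpU_apply, dpV_apply]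
    rw [hA, hB]
    have h4 := four_add t
    rw [smul_mul_smul_comm, smul_mul_smul_comm, ← add_smul, h4]
    simp

/-- Images of blocks under star homomorphisms. -/
def Blk.map {R S : Type*} [Ring R] [StarRing R] [Algebra ℂ R] [Ring S] [StarRing S] [Algebra ℂ S]
    (B : Blk R) (ρ : R →⋆ₐ[ℂ] S) : Blk S where
  u k := ρ (B.u k)
  v k := ρ (B.v k)
  col := by
    have h := congrArg ρ B.col
    simpa only [map_add, map_sum, map_mul, map_star, map_one] using h
  sq := by
    have h := congrArg ρ B.sq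
    simpa only [map_add, map_sum, map_mul, map_star, map_one] using h

end Block

end

end Vale.Agent.Lib.P095
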