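import Vale.Agent.Lib.P095.EInter
import Vale.Agent.Lib.P101.ZMax

/-! The final assembly: `α` is cocycle conjugate to `α ⊗ id_Z`. -/

universe u v

namespace Vale.Agent.Lib.P095

open Vale.Agent.Lib.P101 Filter Topology BoundedContinuousFunction

noncomputable section

section Closure

variable {A Z W : Type u} [CStarAlgebra A] [CStarAlgebra Z] [CStarAlgebra W]

lemma XS_map (f : A →⋆ₐ[ℂ] W) (g : Z →⋆ₐ[ℂ] W) (hc : ∀ a z, f a * g z = g z * f a)
    (τ : W →⋆ₐ[ℂ] W) (hτ : ∀ x ∈ prodSub f g hc, τ x ∈ prodSub f g hc) :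
    ∀ x ∈ XS f g hc, τ x ∈ XS f g hc := by
  intro x hx
  have h1 : x ∈ closure (prodSub f g hc : Set W) := hx
  have h2 : τ x ∈ closure (prodSub f g hc : Set W) :=
    map_mem_closure (star_hom_cont τ) h1 hτ
  exact h2

lemma prodSub_map (f : A →⋆ₐ[ℂ] W) (g : Z →⋆ₐ[ℂ] W) (hc : ∀ a z, f a * g z = g z * f a)
    (τ : W →⋆ₐ[ℂ] W) (a' : A → A) (hf : ∀ a, τ (f a) = f (a' a)) (hg : ∀ z, τ (g z) = g z) :
    ∀ x ∈ prodSub f g hc, τ x ∈ prodSub f g hc := by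
  intro x hx
  refine Submodule.span_induction (p := fun x _ => τ x ∈ prodSub f g hc) ?_ ?_ ?_ ?_ hx
  · rintro _ ⟨a, z, rfl⟩
    rw [map_mul, hf, hg]
    exact gen_mem_prodSub _ _
  · rw [map_zero]
    exact zero_mem _
  · intro x y _ _ hx hy
    rw [map_add]
    exact add_mem hx hy
  · intro r x _ hx
    rw [map_smul]
    exact SMulMemClass.smul_mem r hx

end Closure

section Main

variable {A Z : Type u} [CStarAlgebra A] [CStarAlgebra Z] {ω : Ultrafilter ℕ}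
variable {G : Type v} [Group G]

lemma mapOO_mul {a : G → A →⋆ₐ[ℂ] A} (hmul : ∀ g h x, a (g * h) x = a g (a h x)) (g h : G)
    (x : OO A ω) : mapOO (a (g * h)) x = mapOO (a g) (mapOO (a h) x) := by
  obtain ⟨U, rfl⟩ := dsH_surjective x
  rw [mapOO_dsH, mapOO_dsH, mapOO_dsH]
  congr 1
  ext m n
  exact hmul g h _

lemma mapOO_one {a : G → A →⋆ₐ[ℂ] A} (h1 : ∀ x, a 1 x = x) (x : OO A ω) : mapOO (a 1) x = x := by
  obtain ⟨U, rfl⟩ := dsH_surjective x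
  rw [mapOO_dsH]
  congr 1
  ext m n
  exact h1 _

/-- The main theorem: `α` is cocycle conjugate to `α ⊗ id_Z`. -/
theorem main_equi [TopologicalSpace.SeparableSpace A] [Countable G]
    (hlf : ∀ s : Finset G, Finite (Subgroup.closure (s : Set G)))
    (hω : (ω : Filter ℕ) ≤ cofinite) (hZ : IsJiangSu Z) (hchar : IsEmpty (FOmega A ω →⋆ₐ[ℂ] ℂ))
    (α : G →* (A ≃⋆ₐ[ℂ] A)) :
    ∃ (σ : A →⋆ₐ[ℂ] A) (φ : Z →⋆ₐ[ℂ] A) (β : G →* (A ≃⋆ₐ[ℂ] A)) (w : G → A),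
      IsMaxTensor σ φ ∧ (∀ g a, β g (σ a) = σ (α g a)) ∧ (∀ g z, β g (φ z) = φ z) ∧
      (∀ g, star (w g) * w g = 1 ∧ w g * star (w g) = 1) ∧
      (∀ g h, w (g * h) = w g * β g (w h)) ∧
      ∀ g a, α g a = w g * β g a * star (w g) := by
  have := hZ.separable
  let a : G → A →⋆ₐ[ℂ] A := fun g => (α g : A →⋆ₐ[ℂ] A)
  have h1 : ∀ x, a 1 x = x := fun x => by
    show α 1 x = x
    rw [map_one]
    rfl
  have hmul : ∀ g h x, a (g * h) x = a g (a h x) := fun g h x => by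
    show α (g * h) x = α g (α h x)
    rw [map_mul]
    rfl
  obtain ⟨ψ, hψ, hfix⟩ := exists_psi (ω := ω) (Z := Z) hlf hω hZ hchar h1 hmul
  let X := XS (ddH (A := A) (ω := ω)) ψ hψ
  let ιX : A →⋆ₐ[ℂ] X := fX ddH ψ hψ
  let ψX : Z →⋆ₐ[ℂ] X := gX ddH ψ hψ
  have hc : ∀ a z, ιX a * ψX z = ψX z * ιX a := hX ddH ψ hψ
  have hι : Function.Injective ιX := fun a b h => ddH_injective (congrArg Subtype.val h)
  have hdense : Dense (prodSub ιX ψX hc : Set X) := dense_X ddH ψ hψ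
  have hmem : ∀ g, ∀ x ∈ X, mapOO (a g) x ∈ X := fun g =>
    XS_map ddH ψ hψ (mapOO (a g)) (prodSub_map ddH ψ hψ (mapOO (a g)) (a g)
      (fun b => mapOO_ddH _ _) (fun z => hfix g z))
  let β₀ : G → X →⋆ₐ[ℂ] X := fun g =>
    ((mapOO (a g)).comp X.subtype).codRestrict X (fun x => hmem g _ x.2)
  have hβ₀ : ∀ g (x : X), (β₀ g x : OO A ω) = mapOO (a g) (x : OO A ω) := fun g x => rfl
  have hβ1 : ∀ x, β₀ 1 x = x := fun x => Subtype.ext (by
    rw [hβ₀, mapOO_one h1])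
  have hβmul : ∀ g h x, β₀ (g * h) x = β₀ g (β₀ h x) := fun g h x => Subtype.ext (by
    rw [hβ₀, hβ₀, hβ₀, mapOO_mul hmul])
  have hβι : ∀ g b, β₀ g (ιX b) = ιX (a g b) := fun g b => Subtype.ext (mapOO_ddH _ _)
  have hβψ : ∀ g z, β₀ g (ψX z) = ψX z := fun g z => Subtype.ext (hfix g z)
  have hsep := separable_X ιX ψX hc hdense
  obtain ⟨Φ, W, hbij, hWu, hWco, hWα⟩ := intertwineE a β₀ hβmul ιX hι hβι
    (fun F K S ε hε => local_fullE hZ ιX ψX hc ψ hψ hfix hβι hβψ hdense F K S hε)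
  let e : A ≃⋆ₐ[ℂ] X := StarAlgEquiv.ofBijective Φ hbij
  let eInv : X →⋆ₐ[ℂ] A := (e.symm : X →⋆ₐ[ℂ] A)
  have he1 : ∀ x, Φ (eInv x) = x := fun x => e.apply_symm_apply x
  have he2 : ∀ b, eInv (Φ b) = b := fun b => e.symm_apply_apply b
  let βh : G → A →⋆ₐ[ℂ] A := fun g => eInv.comp ((β₀ g).comp Φ)
  have hβh : ∀ g b, βh g b = eInv (β₀ g (Φ b)) := fun g b => rfl
  have hβh_mul : ∀ g h b, βh (g * h) b = βh g (βh h b) := fun g h b => by
    rw [hβh, hβh, hβh, he1, hβmul]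
  have hβh_one : ∀ b, βh 1 b = b := fun b => by
    rw [hβh, hβ1, he2]
  have hl : ∀ g b, βh g⁻¹ (βh g b) = b := fun g b => by
    rw [← hβh_mul, inv_mul_cancel, hβh_one]
  have hr : ∀ g b, βh g (βh g⁻¹ b) = b := fun g b => by
    rw [← hβh_mul, mul_inv_cancel, hβh_one]
  let β : G →* (A ≃⋆ₐ[ℂ] A) := MonoidHom.mk'
    (fun g => StarAlgEquiv.ofStarAlgHom (βh g) (βh g⁻¹) (StarAlgHom.ext (hl g)) (StarAlgHom.ext (hr g)))
    (fun g h => by
      ext b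
      exact hβh_mul g h b)
  have hβe : ∀ g b, β g b = eInv (β₀ g (Φ b)) := fun g b => rfl
  refine ⟨eInv.comp ιX, eInv.comp ψX, β, fun g => eInv (W g), ⟨?_, ?_⟩, ?_, ?_, ?_, ?_, ?_⟩
  · intro b z
    show eInv (ιX b) * eInv (ψX z) = eInv (ψX z) * eInv (ιX b)
    rw [← map_mul, ← map_mul, hc]
  · intro Y _ α' β' hαβ
    obtain ⟨γ₀, h1', h2'⟩ := univ_exists hZ ιX ψX hc ψ hψ hdense X.subtype (fun _ => rfl)
      (fun _ => rfl) α' β' hαβ
    refine ⟨γ₀.comp Φ, ⟨?_, ?_⟩, ?_⟩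
    · ext b
      show γ₀ (Φ (eInv (ιX b))) = α' b
      rw [he1, h1']
    · ext z
      show γ₀ (Φ (eInv (ψX z))) = β' z
      rw [he1, h2']
    · rintro γ₁ ⟨h3, h4⟩
      have h5 : γ₁.comp eInv = γ₀ := by
        refine univ_unique ιX ψX hc hdense _ _ (fun b => ?_) (fun z => ?_)
        · rw [h1', ← h3]
          rfl
        · rw [h2', ← h4]
          rfl
      ext b
      show γ₁ b = γ₀ (Φ b)
      rw [← h5]
      show γ₁ b = γ₁ (eInv (Φ b))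
      rw [he2]
  · intro g b
    show β g (eInv (ιX b)) = eInv (ιX (a g b))
    rw [hβe, he1, hβι]
  · intro g z
    show β g (eInv (ψX z)) = eInv (ψX z)
    rw [hβe, he1, hβψ]
  · intro g
    constructor
    · rw [← map_star, ← map_mul, (hWu g).1, map_one]
    · rw [← map_star, ← map_mul, (hWu g).2, map_one]
  · intro g h
    show eInv (W (g * h)) = eInv (W g) * β g (eInv (W h))
    rw [hβe, he1, hWco, map_mul]
  · intro g b
    rw [hβe, ← map_star, ← he2 (α g b)]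
    show eInv (Φ (a g b)) = _
    rw [hWα, map_mul, map_mul]

end Main

end

end Vale.Agent.Lib.P095
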