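import Vale.Agent.Lib.P095.Psi

/-! The equivariant version of the local approximation property. -/

universe u v

namespace Vale.Agent.Lib.P095

open Vale.Agent.Lib.P101 Filter Topology BoundedContinuousFunction

noncomputable section

section Flip

/-- The half-flip inside a closed star-subalgebra. -/
theorem flip_sub {Z V : Type u} [CStarAlgebra Z] [CStarAlgebra V] (hZ : IsJiangSu Z)
    (K : StarSubalgebra ℂ V) (hK : IsClosed (K : Set V)) (c d : Z →⋆ₐ[ℂ] V)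
    (hc : ∀ z, c z ∈ K) (hd : ∀ z, d z ∈ K) (hcd : ∀ z z', c z * d z' = d z' * c z)
    (G : Finset Z) {ε : ℝ} (hε : 0 < ε) :
    ∃ w ∈ K, star w * w = 1 ∧ w * star w = 1 ∧ ∀ z ∈ G, ‖w * c z * star w - d z‖ < ε := by
  have : IsClosed (K : Set V) := hK
  let c' : Z →⋆ₐ[ℂ] K := c.codRestrict K hc
  let d' : Z →⋆ₐ[ℂ] K := d.codRestrict K hd
  obtain ⟨w, h1, h2, h3⟩ := hZ.flip K c' d' (fun z z' => Subtype.ext (hcd z z')) G ε hε
  exact ⟨w, w.2, congrArg Subtype.val h1, congrArg Subtype.val h2, h3⟩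

end Flip

section Data

variable {A Z X : Type u} [CStarAlgebra A] [CStarAlgebra Z] [CStarAlgebra X] {ω : Ultrafilter ℕ}
variable {G : Type v} [Group G] {α : G → A →⋆ₐ[ℂ] A} {β : G → X →⋆ₐ[ℂ] X}

lemma mapOO_comm {ιX : A →⋆ₐ[ℂ] X} (hβι : ∀ g a, β g (ιX a) = ιX (α g a)) (g : G) (x : OO A ω) :
    mapOO (β g) (mapOO ιX x) = mapOO ιX (mapOO (α g) x) := by
  obtain ⟨U, rfl⟩ := dsH_surjective x
  rw [mapOO_dsH, mapOO_dsH, mapOO_dsH, mapOO_dsH]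
  congr 1
  ext m n
  exact hβι g _

/-- The half-flip, at the level of representing double sequences, with invariance. -/
theorem flip_extractE (hZ : IsJiangSu Z) (ιX : A →⋆ₐ[ℂ] X) (ψX : Z →⋆ₐ[ℂ] X)
    (hc : ∀ a z, ιX a * ψX z = ψX z * ιX a) (ψ : Z →⋆ₐ[ℂ] OO A ω)
    (hψ : ∀ a z, ddH a * ψ z = ψ z * ddH a) (hfix : ∀ g z, mapOO (α g) (ψ z) = ψ z)
    (hβι : ∀ g a, β g (ιX a) = ιX (α g a)) (hβψ : ∀ g z, β g (ψX z) = ψX z)
    (Ũ : Z → DS A) (hŨ : ∀ z, dsH (ω := ω) (Ũ z) = ψ z)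
    (S : Finset Z) {δ : ℝ} (hδ0 : 0 < δ) :
    ∃ U : DS X, star (dsH (ω := ω) U) * dsH U = 1 ∧ dsH (ω := ω) U * star (dsH U) = 1 ∧
      (∀ a, dsH (ω := ω) U * ddH (ιX a) = ddH (ιX a) * dsH U) ∧
      (∀ z ∈ S, ‖dsH (ω := ω) U * dsH (compD ιX (Ũ z)) * star (dsH U) - ddH (ψX z)‖ < δ) ∧
      ∀ g, dsH (ω := ω) (compD (β g) U) = dsH U := by
  let J : OO A ω →⋆ₐ[ℂ] OO X ω := mapOO ιX
  let c : Z →⋆ₐ[ℂ] OO X ω := J.comp ψ
  let d : Z →⋆ₐ[ℂ] OO X ω := ddH.comp ψX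
  let T : Set (OO X ω) := Set.range fun a => ddH (ιX a)
  have hTstar : ∀ t ∈ T, star t ∈ T := by
    rintro _ ⟨a, rfl⟩
    exact ⟨star a, by simp only [map_star]⟩
  let K₁ : StarSubalgebra ℂ (OO X ω) := StarSubalgebra.centralizer ℂ T
  let K₂ : StarSubalgebra ℂ (OO X ω) := fixSub (fun g => mapOO (β g))
  let K : StarSubalgebra ℂ (OO X ω) := K₁ ⊓ K₂
  have hK : IsClosed (K : Set (OO X ω)) := by
    have h1 : (K : Set (OO X ω)) = (K₁ : Set (OO X ω)) ∩ ⋂ g, {x | mapOO (β g) x = x} := by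
      ext x
      simp only [Set.mem_inter_iff, Set.mem_iInter]
      rfl
    rw [h1]
    refine IsClosed.inter ?_ (isClosed_iInter fun g => ?_)
    · rw [StarSubalgebra.coe_centralizer]
      exact Set.isClosed_centralizer _
    · exact isClosed_eq (star_hom_cont _) continuous_id
  have hmem₁ : ∀ x : OO X ω, (∀ t ∈ T, t * x = x * t) → x ∈ K₁ := by
    intro x hx
    rw [StarSubalgebra.mem_centralizer_iff]
    intro t ht
    exact ⟨hx t ht, hx _ (hTstar t ht)⟩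
  have hcz : ∀ z, c z = dsH (compD ιX (Ũ z)) := fun z => by
    show mapOO ιX (ψ z) = _
    rw [← hŨ z, mapOO_dsH]
  have hdz : ∀ z, d z = dsH (constH (constH (ψX z))) := fun z => rfl
  have hcK : ∀ z, c z ∈ K := by
    intro z
    refine ⟨hmem₁ _ ?_, fun g => ?_⟩
    · rintro _ ⟨a, rfl⟩
      show ddH (ιX a) * J (ψ z) = J (ψ z) * ddH (ιX a)
      have h1 : ddH (ω := ω) (ιX a) = J (ddH a) := (mapOO_ddH ιX a).symm
      rw [h1, ← map_mul, ← map_mul, hψ]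
    · show mapOO (β g) (mapOO ιX (ψ z)) = mapOO ιX (ψ z)
      rw [mapOO_comm hβι, hfix]
  have hdK : ∀ z, d z ∈ K := by
    intro z
    refine ⟨hmem₁ _ ?_, fun g => ?_⟩
    · rintro _ ⟨a, rfl⟩
      show ddH (ιX a) * ddH (ψX z) = ddH (ψX z) * ddH (ιX a)
      rw [← map_mul, ← map_mul, hc]
    · show mapOO (β g) (ddH (ψX z)) = ddH (ψX z)
      rw [mapOO_ddH, hβψ]
  obtain ⟨w, hwK, hw1, hw2, hw4⟩ := flip_sub hZ K hK c d hcK hdK
    (by
      intro z z'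
      rw [hcz, hdz]
      refine dsH_mul_eq fun m n => ?_
      exact hc _ _) S hδ0
  obtain ⟨U, rfl⟩ := dsH_surjective w
  have hw3 := (StarSubalgebra.mem_centralizer_iff ℂ).1 hwK.1
  refine ⟨U, hw1, hw2, fun a => (hw3 _ ⟨a, rfl⟩).1.symm, fun z hz => ?_, fun g => ?_⟩
  · have := hw4 z hz
    rw [hcz] at this
    exact this
  · rw [← mapOO_dsH]
    exact hwK.2 g

/-- Passing to one index of a double sequence. -/
theorem flip_indexE (ιX : A →⋆ₐ[ℂ] X) (ψX : Z →⋆ₐ[ℂ] X) (Ũ : Z → DS A) (F : Finset A) (S : Finset Z)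
    (SG : Finset G) {δ : ℝ} (hδ0 : 0 < δ) (U : DS X) (h1 : star (dsH (ω := ω) U) * dsH U = 1)
    (h2 : dsH (ω := ω) U * star (dsH U) = 1)
    (h3 : ∀ a, dsH (ω := ω) U * ddH (ιX a) = ddH (ιX a) * dsH U)
    (h4 : ∀ z ∈ S, ‖dsH (ω := ω) U * dsH (compD ιX (Ũ z)) * star (dsH U) - ddH (ψX z)‖ < δ)
    (h5 : ∀ g, dsH (ω := ω) (compD (β g) U) = dsH U) :
    ∃ m n, ‖1 - star (U m n) * U m n‖ < δ ∧ ‖1 - U m n * star (U m n)‖ < δ ∧
      (∀ a ∈ F, ‖U m n * ιX a - ιX a * U m n‖ < δ) ∧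
      (∀ z ∈ S, ‖U m n * ιX (Ũ z m n) * star (U m n) - ψX z‖ < δ) ∧
      ∀ g ∈ SG, ‖β g (U m n) - U m n‖ < δ := by
  have e1 : ∀ᶠ p in (ω : Filter ℕ).curry (ω : Filter ℕ), ‖(1 - star U * U) p.1 p.2‖ < δ := by
    refine dsH_ev ?_
    have e : dsH (ω := ω) (1 - star U * U) = 1 - star (dsH (ω := ω) U) * dsH U := by
      simp only [map_sub, map_one, map_mul, map_star]
    rw [e, h1, sub_self, norm_zero]
    exact hδ0
  have e2 : ∀ᶠ p in (ω : Filter ℕ).curry (ω : Filter ℕ), ‖(1 - U * star U) p.1 p.2‖ < δ := by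
    refine dsH_ev ?_
    have e : dsH (ω := ω) (1 - U * star U) = 1 - dsH (ω := ω) U * star (dsH U) := by
      simp only [map_sub, map_one, map_mul, map_star]
    rw [e, h2, sub_self, norm_zero]
    exact hδ0
  have e3 : ∀ᶠ p in (ω : Filter ℕ).curry (ω : Filter ℕ), ∀ a ∈ F,
      ‖(U * constH (constH (ιX a)) - constH (constH (ιX a)) * U) p.1 p.2‖ < δ := by
    rw [Filter.eventually_all_finset]
    intro a _
    refine dsH_ev ?_
    have e : dsH (ω := ω) (U * constH (constH (ιX a)) - constH (constH (ιX a)) * U)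
        = dsH (ω := ω) U * ddH (ιX a) - ddH (ιX a) * dsH U := by
      simp only [map_sub, map_mul]
      rfl
    rw [e, h3, sub_self, norm_zero]
    exact hδ0
  have e4 : ∀ᶠ p in (ω : Filter ℕ).curry (ω : Filter ℕ), ∀ z ∈ S,
      ‖(U * compD ιX (Ũ z) * star U - constH (constH (ψX z))) p.1 p.2‖ < δ := by
    rw [Filter.eventually_all_finset]
    intro z hz
    refine dsH_ev ?_
    have e : dsH (ω := ω) (U * compD ιX (Ũ z) * star U - constH (constH (ψX z)))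
        = dsH (ω := ω) U * dsH (compD ιX (Ũ z)) * star (dsH U) - ddH (ψX z) := by
      simp only [map_sub, map_mul, map_star]
      rfl
    rw [e]
    exact h4 z hz
  have e5 : ∀ᶠ p in (ω : Filter ℕ).curry (ω : Filter ℕ), ∀ g ∈ SG,
      ‖(compD (β g) U - U) p.1 p.2‖ < δ := by
    rw [Filter.eventually_all_finset]
    intro g _
    refine dsH_ev ?_
    rw [map_sub, h5, sub_self, norm_zero]
    exact hδ0
  obtain ⟨⟨m, n⟩, g1, g2, g3, g4, g5⟩ := exists_of_curry (ω := ω) (e1.and (e2.and (e3.and (e4.and e5))))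
  exact ⟨m, n, g1, g2, g3, g4, g5⟩

/-- From a near-unitary to a unitary, keeping the estimates. -/
theorem flip_fixE (ιX : A →⋆ₐ[ℂ] X) (ψX : Z →⋆ₐ[ℂ] X) (F : Finset A) (S : Finset Z) (SG : Finset G)
    (CF CG : ℝ) (hCF0 : 0 ≤ CF) (hCG0 : 0 ≤ CG) (haF : ∀ a ∈ F, ‖a‖ ≤ CF) (b : Z → A)
    (hzG : ∀ z ∈ S, ‖b z‖ ≤ CG) {δ ε : ℝ} (hδ0 : 0 < δ) (hδ1 : δ ≤ 1 / 2)
    (hδ2 : δ * (1 + 8 * CF) < ε) (hδ3 : δ * (1 + 12 * CG) < ε) (hδ4 : 9 * δ < ε) (u₀ : X)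
    (h1 : ‖1 - star u₀ * u₀‖ < δ) (h2 : ‖1 - u₀ * star u₀‖ < δ)
    (h3 : ∀ a ∈ F, ‖u₀ * ιX a - ιX a * u₀‖ < δ)
    (h4 : ∀ z ∈ S, ‖u₀ * ιX (b z) * star u₀ - ψX z‖ < δ)
    (h5 : ∀ g ∈ SG, ‖β g u₀ - u₀‖ < δ) :
    ∃ v : X, star v * v = 1 ∧ v * star v = 1 ∧ (∀ a ∈ F, ‖v * ιX a - ιX a * v‖ < ε) ∧
      (∀ z ∈ S, ∃ b : A, ‖v * ιX b * star v - ψX z‖ < ε) ∧ ∀ g ∈ SG, ‖β g v - v‖ < ε := by
  obtain ⟨v, hv1, hv2, hv3⟩ := near_unitary hδ1 h1.le (h2.trans (by linarith))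
  -- the bound on `u₀`
  have hu₀n : ‖u₀‖ ≤ 2 := by
    have h5 : ‖u₀‖ * ‖u₀‖ = ‖star u₀ * u₀‖ := CStarRing.norm_star_mul_self.symm
    have h6 : ‖star u₀ * u₀‖ ≤ ‖(1 : X)‖ + ‖1 - star u₀ * u₀‖ := by
      have := norm_sub_le (1 : X) (1 - star u₀ * u₀)
      simpa using this
    have h7 := norm_one_le' (X := X)
    have h8 := norm_nonneg u₀
    nlinarith
  have hvu : ‖v - u₀‖ ≤ 4 * δ := by
    refine hv3.trans ?_
    nlinarith [norm_nonneg u₀]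
  have hvn : ‖v‖ ≤ 1 := norm_le_one_of_isometry hv1
  have hιn : ∀ a, ‖ιX a‖ ≤ ‖a‖ := fun a => NonUnitalStarAlgHom.norm_apply_le ιX a
  refine ⟨v, hv1, hv2, ?_, ?_, ?_⟩
  · intro a ha
    have e : v * ιX a - ιX a * v = (v - u₀) * ιX a - ιX a * (v - u₀) + (u₀ * ιX a - ιX a * u₀) := by
      noncomm_ring
    have h5 := h3 a ha
    have h6 : ‖(v - u₀) * ιX a‖ ≤ 4 * δ * CF :=
      (norm_mul_le _ _).trans (mul_le_mul hvu ((hιn a).trans (haF a ha)) (norm_nonneg _)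
        (by positivity))
    have h7 : ‖ιX a * (v - u₀)‖ ≤ CF * (4 * δ) :=
      (norm_mul_le _ _).trans (mul_le_mul ((hιn a).trans (haF a ha)) hvu (norm_nonneg _) hCF0)
    rw [e]
    calc ‖(v - u₀) * ιX a - ιX a * (v - u₀) + (u₀ * ιX a - ιX a * u₀)‖
        ≤ ‖(v - u₀) * ιX a‖ + ‖ιX a * (v - u₀)‖ + ‖u₀ * ιX a - ιX a * u₀‖ :=
          (norm_add_le _ _).trans (add_le_add (norm_sub_le _ _) le_rfl)
      _ < ε := by nlinarith
  · intro z hz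
    refine ⟨b z, ?_⟩
    have hbn : ‖ιX (b z)‖ ≤ CG := (hιn _).trans (hzG z hz)
    have e : v * ιX (b z) * star v - ψX z = (v - u₀) * ιX (b z) * star v
        + u₀ * ιX (b z) * star (v - u₀) + (u₀ * ιX (b z) * star u₀ - ψX z) := by
      rw [star_sub]
      noncomm_ring
    have h5 := h4 z hz
    have h6 : ‖(v - u₀) * ιX (b z) * star v‖ ≤ 4 * δ * CG * 1 := by
      refine norm_mul₃_le.trans ?_
      have h7 : ‖star v‖ ≤ 1 := by rwa [norm_star]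
      gcongr
    have h7 : ‖u₀ * ιX (b z) * star (v - u₀)‖ ≤ 2 * CG * (4 * δ) := by
      refine norm_mul₃_le.trans ?_
      rw [norm_star]
      gcongr
    rw [e]
    calc ‖(v - u₀) * ιX (b z) * star v + u₀ * ιX (b z) * star (v - u₀)
          + (u₀ * ιX (b z) * star u₀ - ψX z)‖
        ≤ ‖(v - u₀) * ιX (b z) * star v‖ + ‖u₀ * ιX (b z) * star (v - u₀)‖
          + ‖u₀ * ιX (b z) * star u₀ - ψX z‖ :=
          (norm_add_le _ _).trans (add_le_add (norm_add_le _ _) le_rfl)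
      _ < ε := by nlinarith
  · intro g hg
    have e : β g v - v = β g (v - u₀) + (β g u₀ - u₀) - (v - u₀) := by
      rw [map_sub]
      abel
    have h6 : ‖β g (v - u₀)‖ ≤ ‖v - u₀‖ := NonUnitalStarAlgHom.norm_apply_le (β g) _
    have h7 := h5 g hg
    rw [e]
    calc ‖β g (v - u₀) + (β g u₀ - u₀) - (v - u₀)‖
        ≤ ‖β g (v - u₀)‖ + ‖β g u₀ - u₀‖ + ‖v - u₀‖ :=
          (norm_sub_le _ _).trans (add_le_add (norm_add_le _ _) le_rfl)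
      _ < ε := by linarith

/-- The first consequence of the half-flip: unitaries almost commuting with `A`, almost invariant
and moving the central copy of `Z` into `A`. -/
theorem local_flipE (hZ : IsJiangSu Z) (ιX : A →⋆ₐ[ℂ] X) (ψX : Z →⋆ₐ[ℂ] X)
    (hc : ∀ a z, ιX a * ψX z = ψX z * ιX a) (ψ : Z →⋆ₐ[ℂ] OO A ω)
    (hψ : ∀ a z, ddH a * ψ z = ψ z * ddH a) (hfix : ∀ g z, mapOO (α g) (ψ z) = ψ z)
    (hβι : ∀ g a, β g (ιX a) = ιX (α g a)) (hβψ : ∀ g z, β g (ψX z) = ψX z)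
    (F : Finset A) (S : Finset Z) (SG : Finset G) {ε : ℝ} (hε : 0 < ε) :
    ∃ v : X, star v * v = 1 ∧ v * star v = 1 ∧ (∀ a ∈ F, ‖v * ιX a - ιX a * v‖ < ε) ∧
      (∀ z ∈ S, ∃ b : A, ‖v * ιX b * star v - ψX z‖ < ε) ∧ ∀ g ∈ SG, ‖β g v - v‖ < ε := by
  classical
  have hl : ∀ z, ∃ U : DS A, dsH (ω := ω) U = ψ z := fun z => dsH_surjective _
  choose Ũ hŨ using hl
  set CF : ℝ := ∑ a ∈ F, ‖a‖ with hCF
  set CG : ℝ := ∑ z ∈ S, ‖Ũ z‖ with hCG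
  have hCF0 : 0 ≤ CF := Finset.sum_nonneg fun _ _ => norm_nonneg _
  have hCG0 : 0 ≤ CG := Finset.sum_nonneg fun _ _ => norm_nonneg _
  have haF : ∀ a ∈ F, ‖a‖ ≤ CF := fun a ha =>
    Finset.single_le_sum (f := fun a => ‖a‖) (fun _ _ => norm_nonneg _) ha
  have hzG : ∀ z ∈ S, ∀ m n, ‖Ũ z m n‖ ≤ CG := fun z hz m n =>
    ((Ũ z m).norm_coe_le_norm n).trans (((Ũ z).norm_coe_le_norm m).trans
      (Finset.single_le_sum (f := fun z => ‖Ũ z‖) (fun _ _ => norm_nonneg _) hz))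
  -- the small constant
  obtain ⟨δ, hδ0, hδ1, hδ2, hδ3, hδ4⟩ : ∃ δ : ℝ, 0 < δ ∧ δ ≤ 1 / 2 ∧ δ * (1 + 8 * CF) < ε ∧
      δ * (1 + 12 * CG) < ε ∧ 9 * δ < ε := by
    refine ⟨min (1 / 2) (ε / (2 * (10 + 8 * CF + 12 * CG))), ?_, min_le_left _ _, ?_, ?_, ?_⟩
    · have : 0 < ε / (2 * (10 + 8 * CF + 12 * CG)) := by positivity
      exact lt_min (by norm_num) this
    · have h1 : min (1 / 2) (ε / (2 * (10 + 8 * CF + 12 * CG))) ≤ ε / (2 * (10 + 8 * CF + 12 * CG)) :=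
        min_le_right _ _
      have h2 : ε / (2 * (10 + 8 * CF + 12 * CG)) * (1 + 8 * CF) < ε := by
        rw [div_mul_eq_mul_div, div_lt_iff₀ (by positivity)]
        nlinarith
      exact lt_of_le_of_lt (by gcongr) h2
    · have h1 : min (1 / 2) (ε / (2 * (10 + 8 * CF + 12 * CG))) ≤ ε / (2 * (10 + 8 * CF + 12 * CG)) :=
        min_le_right _ _
      have h2 : ε / (2 * (10 + 8 * CF + 12 * CG)) * (1 + 12 * CG) < ε := by
        rw [div_mul_eq_mul_div, div_lt_iff₀ (by positivity)]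
        nlinarith
      exact lt_of_le_of_lt (by gcongr) h2
    · have h1 : min (1 / 2) (ε / (2 * (10 + 8 * CF + 12 * CG))) ≤ ε / (2 * (10 + 8 * CF + 12 * CG)) :=
        min_le_right _ _
      have h2 : 9 * (ε / (2 * (10 + 8 * CF + 12 * CG))) < ε := by
        rw [mul_div_assoc', div_lt_iff₀ (by positivity)]
        nlinarith
      exact lt_of_le_of_lt (by gcongr) h2
  obtain ⟨U, h1, h2, h3, h4, h5⟩ := flip_extractE hZ ιX ψX hc ψ hψ hfix hβι hβψ Ũ hŨ S hδ0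
  obtain ⟨m, n, g1, g2, g3, g4, g5⟩ := flip_indexE (ω := ω) (β := β) ιX ψX Ũ F S SG hδ0 U h1 h2 h3 h4 h5
  exact flip_fixE ιX ψX F S SG CF CG hCF0 hCG0 haF (fun z => Ũ z m n) (fun z hz => hzG z hz m n)
    hδ0 hδ1 hδ2 hδ3 hδ4 (U m n) g1 g2 g3 g4 g5

/-- The approximation property needed for the intertwining. -/
theorem local_fullE (hZ : IsJiangSu Z) (ιX : A →⋆ₐ[ℂ] X) (ψX : Z →⋆ₐ[ℂ] X)
    (hc : ∀ a z, ιX a * ψX z = ψX z * ιX a) (ψ : Z →⋆ₐ[ℂ] OO A ω)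
    (hψ : ∀ a z, ddH a * ψ z = ψ z * ddH a) (hfix : ∀ g z, mapOO (α g) (ψ z) = ψ z)
    (hβι : ∀ g a, β g (ιX a) = ιX (α g a)) (hβψ : ∀ g z, β g (ψX z) = ψX z)
    (hdense : Dense (prodSub ιX ψX hc : Set X))
    (F : Finset A) (S : Finset X) (SG : Finset G) {ε : ℝ} (hε : 0 < ε) :
    ∃ v : X, star v * v = 1 ∧ v * star v = 1 ∧ (∀ a ∈ F, ‖v * ιX a * star v - ιX a‖ < ε) ∧
      (∀ x ∈ S, ∃ b, ‖v * ιX b * star v - x‖ < ε) ∧ ∀ g ∈ SG, ‖β g v - v‖ < ε := by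
  classical
  have hl : ∀ x : X, ∃ x' ∈ prodSub ιX ψX hc, ‖x' - x‖ < ε / 2 := by
    intro x
    obtain ⟨x', hx1, hx2⟩ := Metric.dense_iff.1 hdense x (ε / 2) (half_pos hε)
    refine ⟨x', hx2, ?_⟩
    rw [Metric.mem_ball, dist_eq_norm] at hx1
    exact hx1
  choose x' hx' hx'2 using hl
  have ht := fun x => tm_of_mem ιX ψX hc (hx' x)
  choose F₀ G₀ C hC0 hC using ht
  set Ctot : ℝ := ∑ x ∈ S, C x with hCtot
  have hCtot0 : 0 ≤ Ctot := Finset.sum_nonneg fun x _ => hC0 x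
  have hCle : ∀ x ∈ S, C x ≤ Ctot := fun x hx =>
    Finset.single_le_sum (f := fun x => C x) (fun x _ => hC0 x) hx
  obtain ⟨δ, hδ0, hδ1, hδ2, hδ3⟩ : ∃ δ : ℝ, 0 < δ ∧ δ ≤ 1 ∧ δ < ε ∧ Ctot * δ < ε / 2 := by
    refine ⟨min 1 (min (ε / 2) (ε / (2 * (Ctot + 1)))), ?_, min_le_left _ _, ?_, ?_⟩
    · have h1 : 0 < ε / (2 * (Ctot + 1)) := by positivity
      exact lt_min one_pos (lt_min (half_pos hε) h1)
    · refine lt_of_le_of_lt ((min_le_right _ _).trans (min_le_left _ _)) (half_lt_self hε)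
    · have h1 : min 1 (min (ε / 2) (ε / (2 * (Ctot + 1)))) ≤ ε / (2 * (Ctot + 1)) :=
        (min_le_right _ _).trans (min_le_right _ _)
      have h2 : Ctot * (ε / (2 * (Ctot + 1))) < ε / 2 := by
        rw [mul_div_assoc', div_lt_div_iff₀ (by positivity) (by norm_num)]
        nlinarith
      exact lt_of_le_of_lt (by gcongr) h2
  obtain ⟨v, hv1, hv2, hv3, hv4, hv5⟩ := local_flipE hZ ιX ψX hc ψ hψ hfix hβι hβψ
    (F ∪ S.biUnion F₀) (S.biUnion G₀) SG hδ0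
  refine ⟨v, hv1, hv2, ?_, ?_, fun g hg => (hv5 g hg).trans hδ2⟩
  · intro a ha
    have e : v * ιX a * star v - ιX a = (v * ιX a - ιX a * v) * star v := by
      calc v * ιX a * star v - ιX a = v * ιX a * star v - ιX a * (v * star v) := by rw [hv2, mul_one]
        _ = _ := by noncomm_ring
    rw [e]
    have hsv : ‖star v‖ ≤ 1 := by
      rw [norm_star]; exact norm_le_one_of_isometry hv1
    calc ‖(v * ιX a - ιX a * v) * star v‖ ≤ ‖v * ιX a - ιX a * v‖ * ‖star v‖ := norm_mul_le _ _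
      _ ≤ ‖v * ιX a - ιX a * v‖ * 1 := by gcongr
      _ < ε := by
        rw [mul_one]
        exact (hv3 a (Finset.mem_union_left _ ha)).trans hδ2
  · intro x hx
    obtain ⟨b, hb⟩ := hC x v δ hv1 hv2 hδ0 hδ1
      (fun a ha => hv3 a (Finset.mem_union_right _ (Finset.mem_biUnion.2 ⟨x, hx, ha⟩)))
      (fun z hz => hv4 z (Finset.mem_biUnion.2 ⟨x, hx, hz⟩))
    refine ⟨b, ?_⟩
    have e : v * ιX b * star v - x = (v * ιX b * star v - x' x) + (x' x - x) := by abel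
    rw [e]
    have h1 : C x * δ ≤ Ctot * δ := by
      gcongr
      exact hCle x hx
    have h2 := hx'2 x
    calc ‖(v * ιX b * star v - x' x) + (x' x - x)‖
        ≤ ‖v * ιX b * star v - x' x‖ + ‖x' x - x‖ := norm_add_le _ _
      _ < ε := by linarith

end Data

end

end Vale.Agent.Lib.P095
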