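import Vale.Agent.Lib.P095.EFlip

/-! The one-sided intertwining argument, with a cocycle. -/

universe u v

namespace Vale.Agent.Lib.P095

open Vale.Agent.Lib.P101 Filter Topology

noncomputable section

section Inter

variable {A X : Type*} [CStarAlgebra A] [CStarAlgebra X] {G : Type*} [Group G]

/-- The one-sided intertwining argument with a cocycle. -/
theorem intertwineE [TopologicalSpace.SeparableSpace A] [TopologicalSpace.SeparableSpace X]
    [Countable G] (α : G → A →⋆ₐ[ℂ] A) (β : G → X →⋆ₐ[ℂ] X)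
    (hβmul : ∀ g h x, β (g * h) x = β g (β h x))
    (ι : A →⋆ₐ[ℂ] X) (hι : Function.Injective ι) (hβι : ∀ g a, β g (ι a) = ι (α g a))
    (H : ∀ (F : Finset A) (K : Finset X) (S : Finset G) (ε : ℝ), 0 < ε → ∃ u : X, star u * u = 1 ∧
      u * star u = 1 ∧ (∀ a ∈ F, ‖u * ι a * star u - ι a‖ < ε) ∧
      (∀ x ∈ K, ∃ b, ‖u * ι b * star u - x‖ < ε) ∧ ∀ g ∈ S, ‖β g u - u‖ < ε) :
    ∃ (Φ : A →⋆ₐ[ℂ] X) (W : G → X), Function.Bijective Φ ∧
      (∀ g, star (W g) * W g = 1 ∧ W g * star (W g) = 1) ∧
      (∀ g h, W (g * h) = W g * β g (W h)) ∧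
      ∀ g a, Φ (α g a) = W g * β g (Φ a) * star (W g) := by
  classical
  obtain ⟨e, he⟩ := exists_surjective_nat G
  let a : ℕ → A := TopologicalSpace.denseSeq A
  let x : ℕ → X := TopologicalSpace.denseSeq X
  let St := {p : X × Finset A // star p.1 * p.1 = 1 ∧ p.1 * star p.1 = 1}
  have hstep : ∀ (n : ℕ) (σ : St), ∃ σ' : St, (σ.1.2 ∪ {a n} ⊆ σ'.1.2) ∧
      (∀ b ∈ σ.1.2 ∪ {a n}, ‖σ'.1.1 * ι b * star σ'.1.1 - σ.1.1 * ι b * star σ.1.1‖ < (1 / 2) ^ n) ∧
      (∀ i ≤ n, ∃ b ∈ σ'.1.2, ‖σ'.1.1 * ι b * star σ'.1.1 - x i‖ < (1 / 2) ^ n) ∧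
      ∃ u : X, star u * u = 1 ∧ u * star u = 1 ∧ σ'.1.1 = σ.1.1 * u ∧
        ∀ i ≤ n, ‖β (e i) u - u‖ < (1 / 2) ^ n := by
    rintro n ⟨⟨v, F⟩, hv1, hv2⟩
    simp only at hv1 hv2 ⊢
    have hvn : ‖v‖ ≤ 1 := norm_le_one_of_isometry hv1
    have hvn' : ‖star v‖ ≤ 1 := by rwa [norm_star]
    obtain ⟨u, hu1, hu2, hu3, hu4, hu5⟩ := H (F ∪ {a n})
      ((Finset.range (n + 1)).image fun i => star v * x i * v)
      ((Finset.range (n + 1)).image e) ((1 / 2) ^ n) (by positivity)
    have hb : ∀ i ∈ Finset.range (n + 1), ∃ b, ‖u * ι b * star u - star v * x i * v‖ < (1 / 2) ^ n :=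
      fun i hi => hu4 _ (Finset.mem_image_of_mem _ hi)
    choose! b hb using hb
    refine ⟨⟨⟨v * u, F ∪ {a n} ∪ (Finset.range (n + 1)).image b⟩, ?_, ?_⟩, ?_, ?_, ?_,
      u, hu1, hu2, rfl, ?_⟩
    · show star (v * u) * (v * u) = 1
      rw [star_mul]
      calc star u * star v * (v * u) = star u * (star v * v) * u := by noncomm_ring
        _ = 1 := by rw [hv1, mul_one, hu1]
    · show v * u * star (v * u) = 1
      rw [star_mul]
      calc v * u * (star u * star v) = v * (u * star u) * star v := by noncomm_ring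
        _ = 1 := by rw [hu2, mul_one, hv2]
    · exact Finset.subset_union_left
    · intro c hc
      show ‖v * u * ι c * star (v * u) - v * ι c * star v‖ < _
      have e : v * u * ι c * star (v * u) - v * ι c * star v
          = v * (u * ι c * star u - ι c) * star v := by
        rw [star_mul]; noncomm_ring
      rw [e]
      calc ‖v * (u * ι c * star u - ι c) * star v‖
          ≤ ‖v‖ * ‖u * ι c * star u - ι c‖ * ‖star v‖ := norm_mul₃_le
        _ ≤ 1 * ‖u * ι c * star u - ι c‖ * 1 := by gcongr
        _ < _ := by simpa using hu3 c hc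
    · intro i hi
      have hi' : i ∈ Finset.range (n + 1) := Finset.mem_range.2 (by omega)
      refine ⟨b i, Finset.mem_union_right _ (Finset.mem_image_of_mem _ hi'), ?_⟩
      show ‖v * u * ι (b i) * star (v * u) - x i‖ < _
      have e : v * u * ι (b i) * star (v * u) - x i
          = v * (u * ι (b i) * star u - star v * x i * v) * star v := by
        have e1 : x i = v * (star v * x i * v) * star v := by
          calc x i = (v * star v) * x i * (v * star v) := by rw [hv2]; simp
            _ = _ := by noncomm_ring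
        rw [star_mul]
        nth_rw 1 [e1]
        noncomm_ring
      rw [e]
      calc ‖v * (u * ι (b i) * star u - star v * x i * v) * star v‖
          ≤ ‖v‖ * ‖u * ι (b i) * star u - star v * x i * v‖ * ‖star v‖ := norm_mul₃_le
        _ ≤ 1 * ‖u * ι (b i) * star u - star v * x i * v‖ * 1 := by gcongr
        _ < _ := by simpa using hb i hi'
    · intro i hi
      exact hu5 _ (Finset.mem_image_of_mem _ (Finset.mem_range.2 (by omega)))
  choose step hs1 hs2 hs3 hs4 using hstep
  let s : ℕ → St := fun n => Nat.rec ⟨⟨1, ∅⟩, by simp, by simp⟩ (fun n σ => step n σ) n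
  have hs_succ : ∀ n, s (n + 1) = step n (s n) := fun n => rfl
  let v : ℕ → X := fun n => (s n).1.1
  let F : ℕ → Finset A := fun n => (s n).1.2
  have hv1 : ∀ n, star (v n) * v n = 1 := fun n => (s n).2.1
  have hv2 : ∀ n, v n * star (v n) = 1 := fun n => (s n).2.2
  let αn : ℕ → A → X := fun n c => v n * ι c * star (v n)
  have hF1 : ∀ n, F n ⊆ F (n + 1) := fun n c hc => by
    have := hs1 n (s n) (Finset.mem_union_left _ hc)
    rw [← hs_succ] at this
    exact this
  have hFmono : ∀ k n, k ≤ n → F k ⊆ F n := by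
    intro k n hkn
    induction hkn with
    | refl => exact subset_rfl
    | step _ ih => exact ih.trans (hF1 _)
  have ha : ∀ n, a n ∈ F (n + 1) := fun n => by
    have := hs1 n (s n) (Finset.mem_union_right _ (Finset.mem_singleton_self _))
    rw [← hs_succ] at this
    exact this
  have hdist : ∀ n, ∀ c ∈ F n, dist (αn n c) (αn (n + 1) c) < (1 / 2) ^ n := by
    intro n c hc
    have := hs2 n (s n) c (Finset.mem_union_left _ hc)
    rw [← hs_succ] at this
    rw [dist_comm, dist_eq_norm]
    exact this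
  have happ : ∀ n, ∀ i ≤ n, ∃ b ∈ F (n + 1), ‖αn (n + 1) b - x i‖ < (1 / 2) ^ n := by
    intro n i hi
    have := hs3 n (s n) i hi
    rw [← hs_succ] at this
    exact this
  -- the approximating homomorphisms
  have hα_add : ∀ n c d, αn n (c + d) = αn n c + αn n d := fun n c d => by
    simp only [αn, map_add]; noncomm_ring
  have hα_sub : ∀ n c d, αn n (c - d) = αn n c - αn n d := fun n c d => by
    simp only [αn, map_sub]; noncomm_ring
  have hα_mul : ∀ n c d, αn n (c * d) = αn n c * αn n d := fun n c d => by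
    simp only [αn, map_mul]
    calc v n * (ι c * ι d) * star (v n) = v n * ι c * 1 * ι d * star (v n) := by noncomm_ring
      _ = v n * ι c * (star (v n) * v n) * ι d * star (v n) := by rw [hv1]
      _ = _ := by noncomm_ring
  have hα_star : ∀ n c, αn n (star c) = star (αn n c) := fun n c => by
    simp only [αn, map_star, star_mul, star_star]
    noncomm_ring
  have hα_alg : ∀ n (r : ℂ), αn n (algebraMap ℂ A r) = algebraMap ℂ X r := fun n r => by
    simp only [αn, AlgHomClass.commutes]
    rw [Algebra.algebraMap_eq_smul_one, mul_smul_comm, smul_mul_assoc, mul_one, hv2]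
  have hnorm_ι : ∀ c, ‖ι c‖ = ‖c‖ := NonUnitalStarAlgHom.norm_map ι hι
  have hα_norm : ∀ n c, ‖αn n c‖ = ‖c‖ := by
    intro n c
    have hvn : ‖v n‖ ≤ 1 := norm_le_one_of_isometry (hv1 n)
    have hvn' : ‖star (v n)‖ ≤ 1 := by rwa [norm_star]
    apply le_antisymm
    · calc ‖v n * ι c * star (v n)‖ ≤ ‖v n‖ * ‖ι c‖ * ‖star (v n)‖ := norm_mul₃_le
        _ ≤ 1 * ‖ι c‖ * 1 := by gcongr
        _ = ‖c‖ := by rw [mul_one, one_mul, hnorm_ι]
    · rw [← hnorm_ι]
      have e : ι c = star (v n) * (v n * ι c * star (v n)) * v n := by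
        calc ι c = (star (v n) * v n) * ι c * (star (v n) * v n) := by rw [hv1]; simp
          _ = _ := by noncomm_ring
      rw [e]
      calc ‖star (v n) * (v n * ι c * star (v n)) * v n‖
          ≤ ‖star (v n)‖ * ‖v n * ι c * star (v n)‖ * ‖v n‖ := norm_mul₃_le
        _ ≤ 1 * ‖v n * ι c * star (v n)‖ * 1 := by gcongr
        _ = _ := by rw [mul_one, one_mul]
  -- Cauchy on the finite sets
  have hgeo : ∀ (k : ℕ) c, c ∈ F k → ∀ n, dist (αn (n + k) c) (αn (n + 1 + k) c)
      ≤ (1 / 2) ^ k * (1 / 2) ^ n := by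
    intro k c hc n
    have h1 := hdist (n + k) c (hFmono k (n + k) (by omega) hc)
    have e : n + 1 + k = n + k + 1 := by omega
    rw [e, mul_comm, ← pow_add]
    exact h1.le
  have hC₀ : ∀ (k : ℕ) c, c ∈ F k → CauchySeq fun n => αn n c := by
    intro k c hc
    rw [← cauchySeq_shift k]
    exact cauchySeq_of_le_geometric (1 / 2) ((1 / 2) ^ k) (by norm_num) (hgeo k c hc)
  have hC : ∀ c, CauchySeq fun n => αn n c := by
    intro c
    rw [Metric.cauchySeq_iff]
    intro ε hε
    obtain ⟨i, hi⟩ := (TopologicalSpace.denseRange_denseSeq A).exists_dist_lt c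
      (by positivity : 0 < ε / 3)
    obtain ⟨N, hN⟩ := Metric.cauchySeq_iff.1 (hC₀ (i + 1) _ (ha i)) (ε / 3) (by positivity)
    refine ⟨N, fun m hm n hn => ?_⟩
    have h1 := hN m hm n hn
    have h2 : dist (αn m c) (αn m (a i)) = dist c (a i) := by
      rw [dist_eq_norm, dist_eq_norm, ← hα_sub, hα_norm]
    have h3 : dist (αn n c) (αn n (a i)) = dist c (a i) := by
      rw [dist_eq_norm, dist_eq_norm, ← hα_sub, hα_norm]
    have hi' : dist c (a i) < ε / 3 := hi
    calc dist (αn m c) (αn n c) ≤ dist (αn m c) (αn m (a i)) + dist (αn m (a i)) (αn n (a i))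
          + dist (αn n (a i)) (αn n c) := dist_triangle4 _ _ _ _
      _ < ε := by rw [h2, dist_comm (αn n (a i)), h3]; linarith
  have hlim : ∀ c, ∃ y, Tendsto (fun n => αn n c) atTop (𝓝 y) := fun c =>
    cauchySeq_tendsto_of_complete (hC c)
  choose L hL using hlim
  have L_add : ∀ c d, L (c + d) = L c + L d := fun c d =>
    tendsto_nhds_unique (by simpa only [hα_add] using hL (c + d)) ((hL c).add (hL d))
  have L_mul : ∀ c d, L (c * d) = L c * L d := fun c d =>
    tendsto_nhds_unique (by simpa only [hα_mul] using hL (c * d)) ((hL c).mul (hL d))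
  have L_star : ∀ c, L (star c) = star (L c) := fun c =>
    tendsto_nhds_unique (by simpa only [hα_star] using hL (star c)) (hL c).star
  have L_alg : ∀ r, L (algebraMap ℂ A r) = algebraMap ℂ X r := fun r =>
    tendsto_nhds_unique (hL _) (by simpa only [hα_alg] using tendsto_const_nhds)
  have L_norm : ∀ c, ‖L c‖ = ‖c‖ := fun c =>
    tendsto_nhds_unique (hL c).norm (by simpa only [hα_norm] using tendsto_const_nhds)
  let Φ : A →⋆ₐ[ℂ] X :=
    { toFun := L
      map_one' := by
        have := L_alg 1
        rwa [map_one, map_one] at this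
      map_mul' := L_mul
      map_zero' := by
        have := L_alg 0
        rwa [map_zero, map_zero] at this
      map_add' := L_add
      commutes' := L_alg
      map_star' := L_star }
  have hiso : Isometry Φ := AddMonoidHomClass.isometry_of_norm Φ L_norm
  have hbij : Function.Bijective Φ := by
    refine ⟨hiso.injective, ?_⟩
    -- surjectivity
    have hcl : IsClosed (Set.range Φ) := hiso.isClosedEmbedding.isClosed_range
    have hdense : Dense (Set.range Φ) := by
      intro y
      rw [Metric.mem_closure_iff]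
      intro ε hε
      obtain ⟨i, hi⟩ := (TopologicalSpace.denseRange_denseSeq X).exists_dist_lt y
        (by positivity : 0 < ε / 3)
      obtain ⟨N, hN⟩ := exists_pow_lt_of_lt_one (by positivity : 0 < ε / 3)
        (by norm_num : (1 / 2 : ℝ) < 1)
      obtain ⟨n, hn1, hn2⟩ : ∃ n, i ≤ n ∧ N ≤ n := ⟨max i N, le_max_left _ _, le_max_right _ _⟩
      have hpow : ((1 : ℝ) / 2) ^ n < ε / 3 :=
        (pow_le_pow_of_le_one (by norm_num) (by norm_num) hn2).trans_lt hN
      obtain ⟨b, hb1, hb2⟩ := happ n i hn1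
      refine ⟨L b, ⟨b, rfl⟩, ?_⟩
      -- the distance from the approximant to the limit
      have hd0 : dist (αn (0 + (n + 1)) b) (L b) ≤ (1 / 2) ^ (n + 1) / (1 - 1 / 2) := by
        have hL' : Tendsto (fun m => αn (m + (n + 1)) b) atTop (𝓝 (L b)) :=
          (tendsto_add_atTop_iff_nat (n + 1)).2 (hL b)
        exact dist_le_of_le_geometric_of_tendsto₀ (1 / 2) ((1 / 2) ^ (n + 1)) (by norm_num)
          (hgeo (n + 1) b hb1) hL'
      have hd1 : ((1 : ℝ) / 2) ^ (n + 1) / (1 - 1 / 2) = (1 / 2) ^ n := by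
        rw [pow_succ]; ring
      rw [hd1, zero_add] at hd0
      have hb2' : dist (αn (n + 1) b) (x i) < (1 / 2) ^ n := by
        rw [dist_eq_norm]; exact hb2
      have hi' : dist y (x i) < ε / 3 := hi
      calc dist y (L b) ≤ dist y (x i) + dist (x i) (αn (n + 1) b) + dist (αn (n + 1) b) (L b) :=
            dist_triangle4 _ _ _ _
        _ < ε := by rw [dist_comm (x i)]; linarith
    intro y
    have : y ∈ Set.range Φ := by
      rw [← hcl.closure_eq]
      exact hdense y
    exact this
  -- the cocycle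
  let ww : ℕ → G → X := fun n g => v n * star (β g (v n))
  have hβ1 : ∀ g n, star (β g (v n)) * β g (v n) = 1 := fun g n => by
    rw [← map_star, ← map_mul, hv1, map_one]
  have hβ2 : ∀ g n, β g (v n) * star (β g (v n)) = 1 := fun g n => by
    rw [← map_star, ← map_mul, hv2, map_one]
  have hww1 : ∀ n g, star (ww n g) * ww n g = 1 := fun n g => by
    show star (v n * star (β g (v n))) * (v n * star (β g (v n))) = 1
    rw [star_mul, star_star]
    calc β g (v n) * star (v n) * (v n * star (β g (v n)))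
        = β g (v n) * (star (v n) * v n) * star (β g (v n)) := by noncomm_ring
      _ = 1 := by rw [hv1, mul_one, hβ2]
  have hww2 : ∀ n g, ww n g * star (ww n g) = 1 := fun n g => by
    show (v n * star (β g (v n))) * star (v n * star (β g (v n))) = 1
    rw [star_mul, star_star]
    calc v n * star (β g (v n)) * (β g (v n) * star (v n))
        = v n * (star (β g (v n)) * β g (v n)) * star (v n) := by noncomm_ring
      _ = 1 := by rw [hβ1, mul_one, hv2]
  have hwwco : ∀ n g h, ww n (g * h) = ww n g * β g (ww n h) := fun n g h => by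
    show v n * star (β (g * h) (v n)) = v n * star (β g (v n)) * β g (v n * star (β h (v n)))
    rw [map_mul, map_star, hβmul]
    calc v n * star (β g (β h (v n))) = v n * 1 * star (β g (β h (v n))) := by rw [mul_one]
      _ = v n * (star (β g (v n)) * β g (v n)) * star (β g (β h (v n))) := by rw [hβ1]
      _ = _ := by noncomm_ring
  have hwwα : ∀ n g c, αn n (α g c) = ww n g * β g (αn n c) * star (ww n g) := fun n g c => by
    show v n * ι (α g c) * star (v n) = (v n * star (β g (v n))) * β g (v n * ι c * star (v n))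
      * star (v n * star (β g (v n)))
    rw [star_mul, star_star, map_mul, map_mul, map_star, hβι]
    calc v n * ι (α g c) * star (v n)
        = v n * 1 * ι (α g c) * 1 * star (v n) := by simp
      _ = v n * (star (β g (v n)) * β g (v n)) * ι (α g c)
          * (star (β g (v n)) * β g (v n)) * star (v n) := by rw [hβ1]
      _ = _ := by noncomm_ring
  have hwwstep : ∀ i, ∀ n, i ≤ n → dist (ww n (e i)) (ww (n + 1) (e i)) ≤ (1 / 2) ^ n := by
    intro i n hin
    obtain ⟨u, hu1, hu2, hu3, hu4⟩ := hs4 n (s n)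
    rw [← hs_succ] at hu3
    have hu3' : v (n + 1) = v n * u := hu3
    have hvn : ‖v n‖ ≤ 1 := norm_le_one_of_isometry (hv1 n)
    have hβu : β (e i) u * star (β (e i) u) = 1 := by
      rw [← map_star, ← map_mul, hu2, map_one]
    have hβu' : star (β (e i) u) * β (e i) u = 1 := by
      rw [← map_star, ← map_mul, hu1, map_one]
    have hβun : ‖star (β (e i) u)‖ ≤ 1 := by
      rw [norm_star]
      exact norm_le_one_of_isometry hβu'
    have hβvn : ‖star (β (e i) (v n))‖ ≤ 1 := by
      rw [norm_star]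
      exact norm_le_one_of_isometry (hβ1 _ _)
    have e1 : ww (n + 1) (e i) - ww n (e i)
        = v n * ((u - β (e i) u) * star (β (e i) u)) * star (β (e i) (v n)) := by
      show v (n + 1) * star (β (e i) (v (n + 1))) - v n * star (β (e i) (v n)) = _
      rw [hu3', map_mul, star_mul]
      have e2 : v n * star (β (e i) (v n)) = v n * (β (e i) u * star (β (e i) u)) * star (β (e i) (v n)) := by
        rw [hβu, mul_one]
      rw [e2]
      noncomm_ring
    rw [dist_comm, dist_eq_norm, e1]
    calc ‖v n * ((u - β (e i) u) * star (β (e i) u)) * star (β (e i) (v n))‖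
        ≤ ‖v n‖ * ‖(u - β (e i) u) * star (β (e i) u)‖ * ‖star (β (e i) (v n))‖ := norm_mul₃_le
      _ ≤ 1 * (‖u - β (e i) u‖ * 1) * 1 := by
          gcongr
          exact (norm_mul_le _ _).trans (by gcongr)
      _ ≤ (1 / 2) ^ n := by
          rw [mul_one, one_mul, mul_one, norm_sub_rev]
          exact (hu4 i hin).le
  have hCw : ∀ g, CauchySeq fun n => ww n g := by
    intro g
    obtain ⟨i, rfl⟩ := he g
    rw [← cauchySeq_shift i]
    refine cauchySeq_of_le_geometric (1 / 2) ((1 / 2) ^ i) (by norm_num) (fun n => ?_)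
    have h1 := hwwstep i (n + i) (by omega)
    have e' : n + 1 + i = n + i + 1 := by omega
    show dist (ww (n + i) (e i)) (ww (n + 1 + i) (e i)) ≤ _
    rw [e', mul_comm, ← pow_add]
    exact h1
  have hlimw : ∀ g, ∃ y, Tendsto (fun n => ww n g) atTop (𝓝 y) := fun g =>
    cauchySeq_tendsto_of_complete (hCw g)
  choose W hW using hlimw
  have hβc : ∀ g, Continuous (β g) := fun g => star_hom_cont _
  refine ⟨Φ, W, hbij, fun g => ⟨?_, ?_⟩, fun g h => ?_, fun g c => ?_⟩
  · exact tendsto_nhds_unique ((hW g).star.mul (hW g)) (by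
      simp only [hww1]
      exact tendsto_const_nhds)
  · exact tendsto_nhds_unique ((hW g).mul (hW g).star) (by
      simp only [hww2]
      exact tendsto_const_nhds)
  · refine tendsto_nhds_unique (hW (g * h)) ?_
    simp only [hwwco]
    exact (hW g).mul ((hβc g).continuousAt.tendsto.comp (hW h))
  · refine tendsto_nhds_unique (hL (α g c)) ?_
    simp only [hwwα]
    exact ((hW g).mul ((hβc g).continuousAt.tendsto.comp (hL c))).mul (hW g).star

end Inter

end

end Vale.Agent.Lib.P095
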