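import Mathlib

/-! Fixed point algebras of finite group actions have no characters, as soon as there are enough
commuting blocks.  The proof is elementary: a positivity statement of Fejer type for products of
contractions and a bound on the correlations of products of elements of commuting blocks. -/

namespace Vale.Agent.Lib.P095

open scoped ComplexConjugate

noncomputable section

section State

variable {F : Type*} [CStarAlgebra F]

/-- A state, as a linear functional. -/
structure IsSt (ω : F →ₗ[ℂ] ℂ) : Prop where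
  star_map : ∀ x, ω (star x) = conj (ω x)
  pos : ∀ x, 0 ≤ (ω (star x * x)).re
  one : ω 1 = 1

variable {ω : F →ₗ[ℂ] ℂ}

lemma IsSt.im_zero (h : IsSt ω) (x : F) : (ω (star x * x)).im = 0 := by
  have h1 := h.star_map (star x * x)
  rw [star_mul, star_star] at h1
  exact Complex.conj_eq_iff_im.1 h1.symm

lemma IsSt.eq_re (h : IsSt ω) (x : F) : ω (star x * x) = ((ω (star x * x)).re : ℂ) := by
  apply Complex.ext
  · simp
  · simp [h.im_zero x]

/-- Cauchy-Schwarz. -/
lemma IsSt.cs (h : IsSt ω) (y z : F) :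
    ‖ω (star y * z)‖ ^ 2 ≤ (ω (star y * y)).re * (ω (star z * z)).re := by
  set C := ω (star y * z) with hC
  set A := (ω (star y * y)).re with hA
  set B := (ω (star z * z)).re with hB
  have hA0 : 0 ≤ A := h.pos y
  have hB0 : 0 ≤ B := h.pos z
  by_cases hC0 : C = 0
  · rw [hC0, norm_zero]
    have := mul_nonneg hA0 hB0
    simpa using this
  have hn : (‖C‖ : ℂ) ≠ 0 := by
    simpa using hC0
  have hCC : conj C * C = (‖C‖ : ℂ) ^ 2 := by
    rw [Complex.conj_mul']
  have hdual : ω (star z * y) = conj C := by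
    have h0 := h.star_map (star y * z)
    rw [star_mul, star_star] at h0
    exact h0
  have key : ∀ t : ℝ, 0 ≤ A * (t * t) + (2 * ‖C‖) * t + B := by
    intro t
    set s : ℂ := (t : ℂ) * C / (‖C‖ : ℂ) with hs
    have h1 := h.pos (s • y + z)
    have e : star (s • y + z) * (s • y + z) = (conj s * s) • (star y * y) + conj s • (star y * z)
        + s • (star z * y) + star z * z := by
      rw [star_add, star_smul]
      simp only [Complex.star_def]
      simp only [add_mul, mul_add, smul_mul_assoc, mul_smul_comm, smul_smul, smul_add]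
      rw [mul_comm s]
      abel
    rw [e, map_add, map_add, map_add, map_smul, map_smul, map_smul, hdual, ← hC] at h1
    have e1 : conj s * s = ((t * t : ℝ) : ℂ) := by
      rw [hs, map_div₀, map_mul, Complex.conj_ofReal, Complex.conj_ofReal]
      field_simp
      push_cast
      linear_combination (t : ℂ) ^ 2 * hCC
    have e2 : conj s * C = ((t * ‖C‖ : ℝ) : ℂ) := by
      rw [hs, map_div₀, map_mul, Complex.conj_ofReal, Complex.conj_ofReal]
      push_cast
      field_simp
      linear_combination (t : ℂ) * hCC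
    have e3 : s * conj C = ((t * ‖C‖ : ℝ) : ℂ) := by
      rw [hs]
      push_cast
      field_simp
      linear_combination (t : ℂ) * hCC
    simp only [smul_eq_mul] at h1
    rw [e1, e2, e3, h.eq_re y, h.eq_re z] at h1
    simp only [Complex.add_re, Complex.mul_re, Complex.ofReal_re, Complex.ofReal_im, 
      sub_zero, mul_zero] at h1
    simp only [← hA, ← hB] at h1
    nlinarith
  have hd := discrim_le_zero (a := A) (b := 2 * ‖C‖) (c := B) (fun t => by
    have := key t
    nlinarith)
  unfold discrim at hd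
  nlinarith

end State

section It

variable {F : Type*} [Ring F] {Γ : Type*} [Fintype Γ] (x : ℕ → Γ → F) (w : Γ → ℝ)

/-- Iterated weighted sums over products `x i c₀ * x (i+1) c₁ * ... * x (i+m-1) c_{m-1}`. -/
def it {E : Type*} [AddCommMonoid E] [Module ℝ E] : ℕ → ℕ → (F → E) → E
  | _, 0, Φ => Φ 1
  | i, m + 1, Φ => ∑ c, w c • it (i + 1) m (fun X => Φ (x i c * X))

/-- The products occurring in `it`. -/
def ps : ℕ → ℕ → Set F
  | _, 0 => {1}
  | i, m + 1 => {X | ∃ c, ∃ X' ∈ ps (i + 1) m, X = x i c * X'}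

variable {x w}

lemma it_congr {E : Type*} [AddCommMonoid E] [Module ℝ E] (m : ℕ) : ∀ (i : ℕ) (Φ Φ' : F → E),
    (∀ X ∈ ps x i m, Φ X = Φ' X) → it x w i m Φ = it x w i m Φ' := by
  induction m with
  | zero =>
    intro i Φ Φ' h
    exact h 1 rfl
  | succ m ih =>
    intro i Φ Φ' h
    show ∑ c, w c • it x w (i + 1) m _ = ∑ c, w c • it x w (i + 1) m _
    refine Finset.sum_congr rfl fun c _ => ?_
    rw [ih (i + 1) _ _ fun X hX => h _ ⟨c, X, hX, rfl⟩]

lemma it_mono (hw : ∀ c, 0 ≤ w c) (m : ℕ) : ∀ (i : ℕ) (Φ Φ' : F → ℝ),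
    (∀ X ∈ ps x i m, Φ X ≤ Φ' X) → it x w i m Φ ≤ it x w i m Φ' := by
  induction m with
  | zero =>
    intro i Φ Φ' h
    exact h 1 rfl
  | succ m ih =>
    intro i Φ Φ' h
    show ∑ c, w c • it x w (i + 1) m _ ≤ ∑ c, w c • it x w (i + 1) m _
    refine Finset.sum_le_sum fun c _ => ?_
    exact smul_le_smul_of_nonneg_left (ih (i + 1) _ _ fun X hX => h _ ⟨c, X, hX, rfl⟩) (hw c)

lemma it_map {E E' : Type*} [AddCommMonoid E] [Module ℝ E] [AddCommMonoid E'] [Module ℝ E']
    (L : E →ₗ[ℝ] E') (m : ℕ) : ∀ (i : ℕ) (Φ : F → E),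
    L (it x w i m Φ) = it x w i m (fun X => L (Φ X)) := by
  induction m with
  | zero =>
    intro i Φ
    rfl
  | succ m ih =>
    intro i Φ
    show L (∑ c, w c • it x w (i + 1) m _) = ∑ c, w c • it x w (i + 1) m _
    rw [map_sum]
    refine Finset.sum_congr rfl fun c _ => ?_
    rw [map_smul, ih]

lemma it_sum {E ι : Type*} [AddCommMonoid E] [Module ℝ E] (s : Finset ι) (Φ : ι → F → E) (m : ℕ) :
    ∀ (i : ℕ), it x w i m (fun X => ∑ g ∈ s, Φ g X) = ∑ g ∈ s, it x w i m (Φ g) := by
  induction m generalizing Φ with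
  | zero =>
    intro i
    rfl
  | succ m ih =>
    intro i
    show ∑ c, w c • it x w (i + 1) m _ = ∑ g ∈ s, ∑ c, w c • it x w (i + 1) m _
    rw [Finset.sum_comm]
    refine Finset.sum_congr rfl fun c _ => ?_
    rw [← Finset.smul_sum, ih]

end It

section Fejer

variable {F : Type*} [CStarAlgebra F] (Q : ℕ → F)

/-- The partial sums. -/
def vv : ℕ → ℕ → F
  | _, 0 => 1
  | i, L + 1 => 1 + star (Q i) * vv (i + 1) L

/-- The sums of all entries of the Toeplitz type matrix. -/
def SS : ℕ → ℕ → F
  | _, 0 => 1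
  | i, L + 1 => SS (i + 1) L + vv Q i (L + 1) + star (vv Q i (L + 1)) - 1

/-- The positivity of the sums of all entries of the Toeplitz type matrix. -/
lemma fejer {ω : F →ₗ[ℂ] ℂ} (h : IsSt ω)
    (hQ : ∀ i y, 0 ≤ (ω (star y * ((1 - Q i * star (Q i)) * y))).re) (L : ℕ) :
    ∀ i, (ω (star (vv Q i L) * vv Q i L)).re ≤ (ω (SS Q i L)).re := by
  induction L with
  | zero =>
    intro i
    simp [vv, SS]
  | succ L ih =>
    intro i
    set v' := vv Q (i + 1) L with hv'
    set q := Q i with hq
    have hv : vv Q i (L + 1) = 1 + star q * v' := rfl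
    have hS : SS Q i (L + 1) = SS Q (i + 1) L + vv Q i (L + 1) + star (vv Q i (L + 1)) - 1 := rfl
    have e : SS Q i (L + 1) - star (vv Q i (L + 1)) * vv Q i (L + 1)
        = (SS Q (i + 1) L - star v' * v') + star v' * ((1 - q * star q) * v') := by
      rw [hS, hv]
      simp only [star_add, star_one, star_mul, star_star]
      noncomm_ring
    have h1 := ih (i + 1)
    have h2 := hQ i v'
    have e2 := congrArg (fun t => (ω t).re) e
    simp only [map_sub, map_add, Complex.sub_re, Complex.add_re] at e2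
    linarith

lemma fejer_nonneg {ω : F →ₗ[ℂ] ℂ} (h : IsSt ω)
    (hQ : ∀ i y, 0 ≤ (ω (star y * ((1 - Q i * star (Q i)) * y))).re) (i L : ℕ) :
    0 ≤ (ω (SS Q i L)).re :=
  (h.pos _).trans (fejer Q h hQ L i)

/-- Ordered products of `Q`. -/
def PP : ℕ → ℕ → F
  | _, 0 => 1
  | i, m + 1 => PP (i + 1) m * Q i

lemma vv_eq (L : ℕ) : ∀ i, vv Q i L = ∑ m ∈ Finset.range (L + 1), star (PP Q i m) := by
  induction L with
  | zero =>
    intro i
    simp [vv, PP]
  | succ L ih =>
    intro i
    rw [Finset.sum_range_succ']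
    show 1 + star (Q i) * vv Q (i + 1) L = _
    rw [ih, Finset.mul_sum, add_comm]
    have e : star (PP Q i 0) = 1 := by simp [PP]
    rw [e]
    congr 1
    refine Finset.sum_congr rfl fun m _ => ?_
    show _ = star (PP Q (i + 1) m * Q i)
    rw [star_mul]

lemma vv_one (L i : ℕ) : vv (fun _ => (1 : F)) i L = ((L : ℂ) + 1) • (1 : F) := by
  induction L generalizing i with
  | zero => simp [vv]
  | succ L ih =>
    show 1 + star (1 : F) * vv _ (i + 1) L = _
    rw [ih, star_one, one_mul]
    push_cast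
    simp only [add_smul, one_smul]
    abel

lemma SS_one (L i : ℕ) : SS (fun _ => (1 : F)) i L = (((L : ℂ) + 1) ^ 2) • (1 : F) := by
  induction L generalizing i with
  | zero => simp [SS]
  | succ L ih =>
    show SS _ (i + 1) L + vv _ i (L + 1) + star (vv _ i (L + 1)) - 1 = _
    rw [ih, vv_one, star_smul, star_one]
    have e : star (((L + 1 : ℕ) : ℂ) + 1) = ((L + 1 : ℕ) : ℂ) + 1 := by
      simp
    rw [e]
    push_cast
    have e2 : (((L : ℂ) + 1) ^ 2) • (1 : F) + ((L : ℂ) + 1 + 1) • (1 : F) + ((L : ℂ) + 1 + 1) • (1 : F) - 1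
        = (((L : ℂ) + 1) ^ 2 + ((L : ℂ) + 1 + 1) + ((L : ℂ) + 1 + 1) - 1) • (1 : F) := by
      simp only [sub_smul, add_smul, one_smul]
    rw [e2]
    congr 1
    ring

/-- A weighted sum of squares computing `1 - Q Q^*`. -/
lemma col_sq {Γ : Type*} [Fintype Γ] (w : Γ → ℝ) (x x' : Γ → F)
    (h1 : ∑ c, w c • (star (x c) * x c) = 1) (h2 : ∑ c, w c • (star (x' c) * x' c) = 1)
    (Q' : F) (hQ : Q' = ∑ c, w c • (star (x c) * x' c)) :
    1 - Q' * star Q' = ∑ c, w c • (star (x c - x' c * star Q') * (x c - x' c * star Q')) := by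
  have hs : star Q' = ∑ c, w c • (star (x' c) * x c) := by
    rw [hQ, star_sum]
    refine Finset.sum_congr rfl fun c _ => ?_
    rw [star_smul, star_mul, star_star]
    simp
  have e : ∀ c, w c • (star (x c - x' c * star Q') * (x c - x' c * star Q'))
      = w c • (star (x c) * x c) - (w c • (star (x c) * x' c)) * star Q'
        - Q' * (w c • (star (x' c) * x c)) + Q' * (w c • (star (x' c) * x' c)) * star Q' := by
    intro c
    simp only [star_sub, star_mul, star_star, smul_mul_assoc, mul_smul_comm, ← smul_sub, ← smul_add]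
    congr 1
    noncomm_ring
  simp only [e, Finset.sum_add_distrib, Finset.sum_sub_distrib]
  rw [h1, ← Finset.sum_mul, ← Finset.mul_sum, ← Finset.sum_mul, ← Finset.mul_sum, ← hQ, ← hs, h2]
  noncomm_ring

end Fejer

end

end Vale.Agent.Lib.P095
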