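import Vale.Agent.Lib.P095.Reind

/-! The fixed point algebra of `F_ω(A)` under a finite group action. -/

universe u v

namespace Vale.Agent.Lib.P095

open Vale.Agent.Lib.P101 Filter Topology BoundedContinuousFunction

noncomputable section

section Functor

variable {A B C : Type*} [CStarAlgebra A] [CStarAlgebra B] [CStarAlgebra C] {ω : Ultrafilter ℕ}

lemma mapO_comp (π₁ : A →⋆ₐ[ℂ] B) (π₂ : B →⋆ₐ[ℂ] C) (x : AOmega A ω) :
    mapO π₂ (mapO π₁ x) = mapO (π₂.comp π₁) x := by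
  obtain ⟨u, rfl⟩ := qkH_surjective x
  rw [mapO_qkH, mapO_qkH, mapO_qkH]
  congr 1

lemma mapO_id (x : AOmega A ω) : mapO (StarAlgHom.id ℂ A) x = x := by
  obtain ⟨u, rfl⟩ := qkH_surjective x
  rw [mapO_qkH]
  congr 1

lemma star_hom_cont {X Y : Type*} [CStarAlgebra X] [CStarAlgebra Y] (φ : X →⋆ₐ[ℂ] Y) :
    Continuous φ :=
  AddMonoidHomClass.continuous_of_bound φ 1 (fun x => by
    simpa using NonUnitalStarAlgHom.norm_apply_le φ x)

end Functor

section FixDef

variable {A : Type u} [CStarAlgebra A] {ω : Ultrafilter ℕ} {G : Type v} [Group G]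

/-- The fixed point algebra of `F_ω(A)`, as a subalgebra of the ultrapower. -/
def FixF (ω : Ultrafilter ℕ) (a : G → A →⋆ₐ[ℂ] A) : StarSubalgebra ℂ (AOmega A ω) :=
  FOmegaSub A ω ⊓ fixSub (fun g => mapO (a g))

lemma mem_FixF {a : G → A →⋆ₐ[ℂ] A} {x : AOmega A ω} :
    x ∈ FixF ω a ↔ x ∈ FOmegaSub A ω ∧ ∀ g, mapO (a g) x = x := Iff.rfl

instance FixF_closed (a : G → A →⋆ₐ[ℂ] A) : IsClosed (FixF ω a : Set (AOmega A ω)) := by
  have h1 : (FixF ω a : Set (AOmega A ω)) = (FOmegaSub A ω : Set (AOmega A ω)) ∩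
      ⋂ g, {x | mapO (a g) x = x} := by
    ext x
    simp only [Set.mem_inter_iff, Set.mem_iInter, Set.mem_ofPred_eq]
    exact mem_FixF
  rw [h1]
  refine (FOmegaSub_closed A ω).inter (isClosed_iInter fun g => ?_)
  exact isClosed_eq (star_hom_cont _) continuous_id

instance FixF_cstar (a : G → A →⋆ₐ[ℂ] A) : CStarAlgebra (FixF ω a) :=
  StarSubalgebra.cstarAlgebra (FixF ω a)

lemma compH_rei (π : A →⋆ₐ[ℂ] A) (m : ℕ → ℕ) (u : ℕ →ᵇ A) :
    compH π (rei m u) = rei m (compH π u) := rfl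

/-- Reindexing for the fixed point algebra. -/
theorem reind_FixF [Fintype G] [TopologicalSpace.SeparableSpace A]
    (hω : (ω : Filter ℕ) ≤ cofinite)
    (a : G → A →⋆ₐ[ℂ] A) : Reind (FixF ω a) := by
  classical
  intro T X Y hT hX
  have hX' : ∀ x ∈ X, qk A ω x ∈ FOmegaSub A ω := fun x hx => (hX x hx).1
  have hfix : ∀ x ∈ X, ∀ g, qk A ω (compH (a g) x - x) = 0 := by
    intro x hx g
    rw [map_sub, sub_eq_zero]
    have := (hX x hx).2 g
    rwa [← qkH_apply, mapO_qkH] at this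
  let T' : Finset (ℕ →ᵇ A) := T ∪ (Finset.univ ×ˢ X).image (fun p => compH (a p.1) p.2 - p.2)
  have hT' : ∀ t ∈ T', Tendsto (fun n => ‖t n‖) (ω : Filter ℕ) (𝓝 0) := by
    intro t ht
    simp only [T', Finset.mem_union, Finset.mem_image, Finset.mem_product, Finset.mem_univ,
      true_and, Prod.exists] at ht
    rcases ht with ht | ⟨g, x, hx, rfl⟩
    · exact hT t ht
    · exact qk_eq_zero.1 (hfix x hx g)
  obtain ⟨m, hm1, hm2, hm3⟩ := reind_FOmega hω T' X Y hT' hX'
  refine ⟨m, fun t ht => hm1 t (Finset.mem_union_left _ ht), fun x hx => ⟨hm2 x hx, fun g => ?_⟩, hm3⟩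
  have h1 := hm1 (compH (a g) x - x) (Finset.mem_union_right _ (Finset.mem_image.2
    ⟨(g, x), Finset.mem_product.2 ⟨Finset.mem_univ _, hx⟩, rfl⟩))
  rw [← qkH_apply, mapO_qkH, compH_rei]
  rw [map_sub, map_sub, sub_eq_zero] at h1
  exact h1

end FixDef

section Act

variable {A : Type u} [CStarAlgebra A] {ω : Ultrafilter ℕ} {G : Type v} [Group G]
variable {a : G → A →⋆ₐ[ℂ] A}

lemma a_inv_right (h1 : ∀ x, a 1 x = x) (hmul : ∀ g h x, a (g * h) x = a g (a h x)) (g : G) (x : A) :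
    a g (a g⁻¹ x) = x := by
  rw [← hmul, mul_inv_cancel, h1]

lemma mapO_act_mem (h1 : ∀ x, a 1 x = x) (hmul : ∀ g h x, a (g * h) x = a g (a h x)) (g : G)
    {x : AOmega A ω} (hx : x ∈ FOmegaSub A ω) : mapO (a g) x ∈ FOmegaSub A ω := by
  rw [FOmegaSub, StarSubalgebra.mem_centralizer_iff] at hx ⊢
  rintro _ ⟨b, rfl⟩
  have e : ∀ b : A, diag A ω b = mapO (a g) (diag A ω (a g⁻¹ b)) := by
    intro b
    have := mapO_diagH (ω := ω) (a g) (a g⁻¹ b)
    rw [a_inv_right h1 hmul] at this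
    exact this.symm
  obtain ⟨h2, h3⟩ := hx (diag A ω (a g⁻¹ b)) ⟨_, rfl⟩
  constructor
  · rw [e b, ← map_mul, ← map_mul, h2]
  · rw [e b, ← map_star, ← map_mul, ← map_mul, h3]

/-- The action on the central sequence algebra. -/
def actF (h1 : ∀ x, a 1 x = x) (hmul : ∀ g h x, a (g * h) x = a g (a h x)) (g : G) :
    FOmega A ω →⋆ₐ[ℂ] FOmega A ω :=
  ((mapO (a g)).comp (FOmegaSub A ω).subtype).codRestrict (FOmegaSub A ω)
    (fun x => mapO_act_mem h1 hmul g x.2)

lemma actF_coe (h1 : ∀ x, a 1 x = x) (hmul : ∀ g h x, a (g * h) x = a g (a h x)) (g : G)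
    (x : FOmega A ω) : inclF (actF (ω := ω) h1 hmul g x) = mapO (a g) (inclF x) := rfl

lemma inclF_inj : Function.Injective (inclF (A := A) (ω := ω)) := Subtype.val_injective

lemma actF_one (h1 : ∀ x, a 1 x = x) (hmul : ∀ g h x, a (g * h) x = a g (a h x))
    (x : FOmega A ω) : actF h1 hmul 1 x = x := by
  apply inclF_inj
  rw [actF_coe]
  have e : a 1 = StarAlgHom.id ℂ A := by
    ext b
    exact h1 b
  rw [e, mapO_id]

lemma actF_mul (h1 : ∀ x, a 1 x = x) (hmul : ∀ g h x, a (g * h) x = a g (a h x)) (g h : G)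
    (x : FOmega A ω) : actF h1 hmul (g * h) x = actF h1 hmul g (actF h1 hmul h x) := by
  apply inclF_inj
  rw [actF_coe, actF_coe, actF_coe, mapO_comp]
  have e : a (g * h) = (a g).comp (a h) := by
    ext b
    exact hmul g h b
  rw [e]

end Act

section Blocks

variable {F : Type*} [CStarAlgebra F] {G : Type*} [Group G] {a : G → F →⋆ₐ[ℂ] F}

/-- Building a sequence of blocks, all of whose translates commute. -/
theorem exists_blocks [Finite G] (h1 : ∀ x, a 1 x = x) (hmul : ∀ g h x, a (g * h) x = a g (a h x))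
    (hcopy : ∀ W : Set F, W.Finite → ∃ B : Blk F, ∀ x ∈ B.gens, x ∈ Set.centralizer W) :
    ∃ B : ℕ → Blk F, ∀ i j, i ≠ j → ∀ s ∈ (B i).orb a, ∀ t ∈ (B j).orb a, s * t = t * s := by
  classical
  choose BB hBB using hcopy
  have horb : ∀ B : Blk F, (B.orb a).Finite := by
    intro B
    have : B.orb a = ⋃ g, (fun e => a g e) '' B.gens := by
      ext y
      simp only [Blk.orb, Set.mem_ofPred_eq, Set.mem_iUnion, Set.mem_image]
      constructor
      · rintro ⟨g, e, he, rfl⟩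
        exact ⟨g, e, he, rfl⟩
      · rintro ⟨g, e, he, rfl⟩
        exact ⟨g, e, he, rfl⟩
    rw [this]
    exact Set.finite_iUnion fun g => B.gens_finite.image _
  let St := {W : Set F // W.Finite}
  let nxt : St → St := fun W => ⟨W.1 ∪ (BB W.1 W.2).orb a, W.2.union (horb _)⟩
  let W : ℕ → St := fun n => Nat.rec ⟨∅, Set.finite_empty⟩ (fun _ σ => nxt σ) n
  let B : ℕ → Blk F := fun n => BB (W n).1 (W n).2
  have hW_succ : ∀ n, (W (n + 1)).1 = (W n).1 ∪ (B n).orb a := fun n => rfl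
  have hW_mono : ∀ i j, i ≤ j → (W i).1 ⊆ (W j).1 := by
    intro i j hij
    induction hij with
    | refl => exact subset_rfl
    | step _ ih =>
      rename_i n _
      rw [hW_succ]
      exact ih.trans Set.subset_union_left
  have horbW : ∀ i j, i < j → (B i).orb a ⊆ (W j).1 := by
    intro i j hij
    have : (B i).orb a ⊆ (W (i + 1)).1 := by
      rw [hW_succ]
      exact Set.subset_union_right
    exact this.trans (hW_mono _ _ hij)
  have hmain : ∀ i j, i < j → ∀ s ∈ (B i).orb a, ∀ t ∈ (B j).orb a, s * t = t * s := by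
    rintro i j hij s hs _ ⟨h, e, he, rfl⟩
    have hs' : a h⁻¹ s ∈ (B i).orb a := Blk.orb_act hmul _ h⁻¹ hs
    have h2 : a h⁻¹ s ∈ (W j).1 := horbW i j hij hs'
    have h3 := Set.mem_centralizer_iff.1 (hBB (W j).1 (W j).2 e he) _ h2
    have h4 : a h (a h⁻¹ s) = s := by
      rw [← hmul, mul_inv_cancel, h1]
    have h5 := congrArg (a h) h3
    rw [map_mul, map_mul, h4] at h5
    exact h5
  refine ⟨B, fun i j hij s hs t ht => ?_⟩
  rcases lt_or_gt_of_ne hij with h | h
  · exact hmain i j h s hs t ht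
  · exact (hmain j i h t ht s hs).symm

end Blocks

section CopyB

variable {A : Type u} [CStarAlgebra A] {ω : Ultrafilter ℕ}

/-- The residuals of a block. -/
def residB {R : Type*} [Ring R] [StarRing R] (u : Fin 2 → R) (v : Fin 3 → R) : Fin 2 → R :=
  ![(∑ k, ∑ l, star (star (u k) * u l) * (star (u k) * u l))
      + (∑ k, ∑ l, star (star (u k) * u l) * (star (u k) * u l))
      + (∑ k, ∑ l, star (star (u k) * u l) * (star (u k) * u l))
      + (∑ k, ∑ l, star (star (v k) * v l) * (star (v k) * v l))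
      + (∑ k, ∑ l, star (star (v k) * v l) * (star (v k) * v l)) - (1 + 1 + 1 + 1 + 1 + 1),
    (∑ k, star (u k) * u k) * (∑ k, star (u k) * u k)
      + (∑ k, star (v k) * v k) * (∑ k, star (v k) * v k) - 1]

lemma map_residB {R S : Type*} [Ring R] [StarRing R] [Ring S] [StarRing S] (φ : R →+* S)
    (hφ : ∀ a, φ (star a) = star (φ a)) (u : Fin 2 → R) (v : Fin 3 → R) (i : Fin 2) :
    φ (residB u v i) = residB (fun k => φ (u k)) (fun k => φ (v k)) i := by
  fin_cases i <;> simp [residB, hφ, map_sum, map_mul, map_sub, map_add, map_one]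

lemma reiq_star' (m : ℕ → ℕ) (u : ℕ →ᵇ A) : reiq (ω := ω) m (star u) = star (reiq m u) :=
  reiq_star m u

/-- Copies of a block commuting with a given finite set. -/
theorem copyB_of_reind {Sub : StarSubalgebra ℂ (AOmega A ω)} (hS : Reind Sub) (B : Blk Sub)
    (W : Set Sub) (hW : W.Finite) :
    ∃ B' : Blk Sub, ∀ x ∈ B'.gens, x ∈ Set.centralizer W := by
  classical
  have hl : ∀ y : Sub, ∃ u : ℕ →ᵇ A, qk A ω u = coeS Sub y := fun y => qk_surjective A ω _
  choose L hL using hl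
  have hres : ∀ i, residB B.u B.v i = 0 := by
    intro i
    fin_cases i
    · show _ - _ = (0 : Sub)
      rw [B.col, sub_self]
    · show _ - _ = (0 : Sub)
      rw [B.sq, sub_self]
  have hres0 : ∀ i, qk A ω (residB (fun k => L (B.u k)) (fun k => L (B.v k)) i) = 0 := by
    intro i
    rw [map_residB (qk A ω) (fun a => (star_qk a).symm)]
    simp only [hL]
    rw [← map_residB (coeS Sub) coeS_star, hres i, map_zero]
  let T : Finset (ℕ →ᵇ A) := Finset.univ.image (residB (fun k => L (B.u k)) (fun k => L (B.v k)))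
  have hT : ∀ t ∈ T, qk A ω t = 0 := by
    intro t ht
    simp only [T, Finset.mem_image, Finset.mem_univ, true_and] at ht
    obtain ⟨i, rfl⟩ := ht
    exact hres0 i
  let X0 : Finset (ℕ →ᵇ A) := (Finset.univ.image (fun k => L (B.u k))) ∪
    Finset.univ.image (fun l => L (B.v l))
  have hX0 : ∀ u ∈ X0, qk A ω u ∈ Sub := by
    intro u hu
    simp only [X0, Finset.mem_union, Finset.mem_image, Finset.mem_univ, true_and] at hu
    rcases hu with ⟨c, rfl⟩ | ⟨l, rfl⟩ <;> (rw [hL]; exact SetLike.coe_mem _)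
  obtain ⟨m, hm1, hm2⟩ := hS.copy T hT X0 hX0 W hW
  choose! r hr1 hr2 hr3 using hm2
  have huX : ∀ k, L (B.u k) ∈ X0 := fun k => Finset.mem_union_left _
    (Finset.mem_image_of_mem _ (Finset.mem_univ _))
  have hvX : ∀ k, L (B.v k) ∈ X0 := fun k => Finset.mem_union_right _
    (Finset.mem_image_of_mem _ (Finset.mem_univ _))
  have hnew : ∀ i, residB (fun k => r (L (B.u k))) (fun k => r (L (B.v k))) i = 0 := by
    intro i
    apply coeS_inj
    rw [map_residB (coeS Sub) coeS_star, map_zero]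
    simp only [hr1 _ (huX _), hr1 _ (hvX _)]
    rw [← map_residB (reiq m) (reiq_star m)]
    exact hm1 _ (Finset.mem_image_of_mem _ (Finset.mem_univ _))
  refine ⟨⟨fun k => r (L (B.u k)), fun k => r (L (B.v k)), sub_eq_zero.1 (hnew 0),
    sub_eq_zero.1 (hnew 1)⟩, ?_⟩
  intro x hx
  simp only [Blk.gens, Set.mem_union, Set.mem_range] at hx
  rcases hx with ((⟨k, rfl⟩ | ⟨k, rfl⟩) | ⟨k, rfl⟩) | ⟨k, rfl⟩
  · exact hr2 _ (huX k)
  · exact hr3 _ (huX k)
  · exact hr2 _ (hvX k)
  · exact hr3 _ (hvX k)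

end CopyB

section Main

variable {A : Type u} [CStarAlgebra A] {ω : Ultrafilter ℕ} {G : Type v} [Group G] [Fintype G]
variable {a : G → A →⋆ₐ[ℂ] A}

/-- No characters on the fixed point algebra of `F_ω(A)`. -/
theorem noChar_FixF [TopologicalSpace.SeparableSpace A] (hω : (ω : Filter ℕ) ≤ cofinite)
    (hchar : IsEmpty (FOmega A ω →⋆ₐ[ℂ] ℂ))
    (h1 : ∀ x, a 1 x = x) (hmul : ∀ g h x, a (g * h) x = a g (a h x)) :
    IsEmpty (FixF ω a →⋆ₐ[ℂ] ℂ) := by
  classical
  -- one block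
  have hρ : Nonempty (DP 2 3 →⋆ₐ[ℂ] FOmega A ω) :=
    exists_hom_dp (by norm_num) (by norm_num) (by norm_num) (FOmega_tinv hω hchar)
  obtain ⟨ρ⟩ := hρ
  let B0 : Blk (FOmega A ω) := dpBlk.map ρ
  have hcopy : ∀ W : Set (FOmega A ω), W.Finite →
      ∃ B : Blk (FOmega A ω), ∀ x ∈ B.gens, x ∈ Set.centralizer W := fun W hW =>
    copyB_of_reind (Sub := FOmegaSub A ω) (reind_FOmega hω) B0 W hW
  obtain ⟨B, hB⟩ := exists_blocks (a := actF (ω := ω) h1 hmul) (actF_one h1 hmul)
    (actF_mul h1 hmul) hcopy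
  have hn := no_char_fix (B := B) (actF_one (ω := ω) h1 hmul) (actF_mul h1 hmul) hB
  refine ⟨fun χ => hn.false (χ.comp ?_)⟩
  refine
    { toFun := fun x => ⟨inclF x.1, x.1.2, fun g => ?_⟩
      map_one' := rfl
      map_mul' := fun _ _ => rfl
      map_zero' := rfl
      map_add' := fun _ _ => rfl
      commutes' := fun _ => rfl
      map_star' := fun _ => rfl }
  have := congrArg inclF (x.2 g)
  rwa [actF_coe] at this

/-- The fixed point algebra receives unital maps from all prime dimension drop algebras. -/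
theorem exists_hom_FixF [TopologicalSpace.SeparableSpace A] (hω : (ω : Filter ℕ) ≤ cofinite)
    (hchar : IsEmpty (FOmega A ω →⋆ₐ[ℂ] ℂ))
    (h1 : ∀ x, a 1 x = x) (hmul : ∀ g h x, a (g * h) x = a g (a h x))
    {p q : ℕ} (hpq : Nat.Coprime p q) (hp : 2 ≤ p) (hq : 2 ≤ q) :
    Nonempty (DP p q →⋆ₐ[ℂ] FixF ω a) := by
  classical
  have hS : Reind (FixF ω a) := reind_FixF hω a
  refine exists_hom_dp hpq hp hq fun k => ?_
  exact tinv_of_copy (F := FixF ω a) (copyProp_of_reind hS) (copyInv_of_reind hS)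
    (noChar_FixF hω hchar h1 hmul) k (copyT_of_reind hS 0)

end Main

end

end Vale.Agent.Lib.P095
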