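import Vale.Agent.Lib.P095.Blocks

/-! The theorem: enough commuting blocks force the fixed point algebra to have no characters. -/

namespace Vale.Agent.Lib.P095

open scoped ComplexConjugate

noncomputable section

attribute [local instance] CStarAlgebra.spectralOrder CStarAlgebra.spectralOrderedRing

section Main

variable {F : Type*} [CStarAlgebra F] {G : Type*} [Group G] [Fintype G] {a : G → F →⋆ₐ[ℂ] F}

/-- The average over the group. -/
def avg (a : G → F →⋆ₐ[ℂ] F) (x : F) : F := ((Fintype.card G : ℂ)⁻¹) • ∑ g, a g x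

lemma card_ne : (Fintype.card G : ℂ) ≠ 0 := by
  exact_mod_cast Fintype.card_ne_zero

variable (h1 : ∀ x, a 1 x = x) (hmul : ∀ g h x, a (g * h) x = a g (a h x))

include hmul in
lemma avg_mem (x : F) : avg a x ∈ fixSub a := by
  intro h
  show a h (((Fintype.card G : ℂ)⁻¹) • ∑ g, a g x) = _
  rw [map_smul, map_sum]
  simp only [← hmul]
  congr 1
  exact Equiv.sum_comp (Equiv.mulLeft h) (fun g => a g x)

include hmul in
lemma avg_act (h : G) (x : F) : avg a (a h x) = avg a x := by
  show ((Fintype.card G : ℂ)⁻¹) • ∑ g, a g (a h x) = ((Fintype.card G : ℂ)⁻¹) • ∑ g, a g x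
  simp only [← hmul]
  congr 1
  exact Equiv.sum_comp (Equiv.mulRight h) (fun g => a g x)

lemma avg_fix {x : F} (hx : x ∈ fixSub a) : avg a x = x := by
  show ((Fintype.card G : ℂ)⁻¹) • ∑ g, a g x = x
  have : ∀ g, a g x = x := hx
  simp only [this, Finset.sum_const, Finset.card_univ]
  rw [← Nat.cast_smul_eq_nsmul ℂ, smul_smul, inv_mul_cancel₀ card_ne, one_smul]

lemma avg_star (x : F) : avg a (star x) = star (avg a x) := by
  show ((Fintype.card G : ℂ)⁻¹) • ∑ g, a g (star x) = star (((Fintype.card G : ℂ)⁻¹) • ∑ g, a g x)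
  rw [star_smul, star_sum]
  simp only [map_star]
  congr 1
  simp

/-- Characters of the fixed point algebra are positive. -/
lemma char_pos (χ : fixSub a →⋆ₐ[ℂ] ℂ) (W : fixSub a) (h0 : 0 ≤ (W : F)) : 0 ≤ (χ W).re := by
  set z := χ W with hz
  have hmem : z ∈ spectrum ℂ (W : F) := by
    by_contra hn
    have hu : IsUnit (algebraMap ℂ F z - (W : F)) := by
      rw [spectrum.mem_iff, not_not] at hn
      exact hn
    obtain ⟨u, hu⟩ := hu
    have hfix : ∀ g, a g (u⁻¹ : Fˣ) = (u⁻¹ : Fˣ) := by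
      intro g
      have e1 : a g (u : F) = u := by
        rw [hu, map_sub, AlgHomClass.commutes, W.2 g]
      have e2 : (u : F) * a g ((u⁻¹ : Fˣ) : F) = 1 := by
        calc (u : F) * a g ((u⁻¹ : Fˣ) : F) = a g (u : F) * a g ((u⁻¹ : Fˣ) : F) := by rw [e1]
          _ = 1 := by rw [← map_mul, Units.mul_inv, map_one]
      calc a g ((u⁻¹ : Fˣ) : F) = ((u⁻¹ : Fˣ) : F) * ((u : F) * a g ((u⁻¹ : Fˣ) : F)) := by
            rw [← mul_assoc, Units.inv_mul, one_mul]
        _ = _ := by rw [e2, mul_one]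
    let J : fixSub a := ⟨((u⁻¹ : Fˣ) : F), hfix⟩
    have e3 : (algebraMap ℂ (fixSub a) z - W) * J = 1 := by
      apply Subtype.ext
      show (algebraMap ℂ F z - (W : F)) * ((u⁻¹ : Fˣ) : F) = 1
      rw [← hu, Units.mul_inv]
    have e4 := congrArg χ e3
    rw [map_mul, map_sub, AlgHomClass.commutes, map_one, ← hz] at e4
    simp at e4
  have hsa : IsSelfAdjoint (W : F) := h0.isSelfAdjoint
  have e : z = ((z.re : ℝ) : ℂ) := hsa.mem_spectrum_eq_re hmem
  have hr : z.re ∈ spectrum ℝ (W : F) := by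
    rw [← spectrum.preimage_algebraMap ℂ]
    show ((z.re : ℝ) : ℂ) ∈ spectrum ℂ (W : F)
    rw [← e]
    exact hmem
  exact spectrum_nonneg_of_nonneg h0 hr

/-- The state associated with a character of the fixed point algebra. -/
def omg (hmul : ∀ g h x, a (g * h) x = a g (a h x)) (χ : fixSub a →⋆ₐ[ℂ] ℂ) : F →ₗ[ℂ] ℂ where
  toFun x := χ ⟨avg a x, avg_mem hmul x⟩
  map_add' x y := by
    rw [← map_add]
    congr 1
    apply Subtype.ext
    show ((Fintype.card G : ℂ)⁻¹) • ∑ g, a g (x + y) = ((Fintype.card G : ℂ)⁻¹) • ∑ g, a g x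
      + ((Fintype.card G : ℂ)⁻¹) • ∑ g, a g y
    simp only [map_add, Finset.sum_add_distrib, smul_add]
  map_smul' r x := by
    rw [RingHom.id_apply, smul_eq_mul]
    have : r * χ ⟨avg a x, avg_mem hmul x⟩ = χ (r • ⟨avg a x, avg_mem hmul x⟩) := by
      rw [map_smul, smul_eq_mul]
    rw [this]
    congr 1
    apply Subtype.ext
    show ((Fintype.card G : ℂ)⁻¹) • ∑ g, a g (r • x) = r • ((Fintype.card G : ℂ)⁻¹) • ∑ g, a g x
    simp only [map_smul, ← Finset.smul_sum]
    rw [smul_comm]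

lemma omg_apply (χ : fixSub a →⋆ₐ[ℂ] ℂ) (x : F) : omg hmul χ x = χ ⟨avg a x, avg_mem hmul x⟩ := rfl

lemma omg_fix (χ : fixSub a →⋆ₐ[ℂ] ℂ) (x : fixSub a) : omg hmul χ (x : F) = χ x := by
  rw [omg_apply]
  congr 1
  exact Subtype.ext (avg_fix x.2)

lemma omg_act (χ : fixSub a →⋆ₐ[ℂ] ℂ) (h : G) (x : F) : omg hmul χ (a h x) = omg hmul χ x := by
  rw [omg_apply, omg_apply]
  congr 1
  exact Subtype.ext (avg_act hmul h x)

include h1 in
lemma omg_st (χ : fixSub a →⋆ₐ[ℂ] ℂ) : IsSt (omg hmul χ) := by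
  refine ⟨fun x => ?_, fun x => ?_, ?_⟩
  · rw [omg_apply, omg_apply]
    have : (⟨avg a (star x), avg_mem hmul _⟩ : fixSub a) = star ⟨avg a x, avg_mem hmul x⟩ :=
      Subtype.ext (avg_star x)
    rw [this, map_star]
    rfl
  · rw [omg_apply]
    refine char_pos χ _ ?_
    show 0 ≤ ((Fintype.card G : ℂ)⁻¹) • ∑ g, a g (star x * x)
    have e : ((Fintype.card G : ℂ)⁻¹) = (((Fintype.card G : ℝ)⁻¹ : ℝ) : ℂ) := by
      push_cast
      rfl
    rw [e, Complex.coe_smul]
    refine smul_nonneg (by positivity) (Finset.sum_nonneg fun g _ => ?_)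
    rw [map_mul, map_star]
    exact star_mul_self_nonneg _
  · have : omg hmul χ ((1 : fixSub a) : F) = χ 1 := omg_fix hmul χ 1
    simpa using this

/-- The identity for the character. -/
lemma omg_id (χ : fixSub a →⋆ₐ[ℂ] ℂ) (X : F) :
    (Fintype.card G : ℂ) * ((‖omg hmul χ X‖ ^ 2 : ℝ) : ℂ)
      = ∑ g, omg hmul χ (star X * a g X) := by
  set ω := omg hmul χ with hω
  set n : ℂ := (Fintype.card G : ℂ) with hn
  have hn0 : n ≠ 0 := card_ne
  let e : fixSub a := ⟨avg a X, avg_mem hmul X⟩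
  have h2 : χ (star e * e) = ((‖ω X‖ ^ 2 : ℝ) : ℂ) := by
    rw [map_mul, map_star]
    show star (ω X) * ω X = _
    rw [Complex.star_def, Complex.conj_mul']
    push_cast
    rfl
  have h3 : χ (star e * e) = ω (star (avg a X) * avg a X) := by
    rw [hω]
    exact (omg_fix hmul χ (star e * e)).symm
  have hconj : star (n⁻¹) = n⁻¹ := by
    simp [hn]
  have h4 : star (avg a X) * avg a X = (n⁻¹ * n⁻¹) • ∑ g, ∑ h, star (a g X) * a h X := by
    show star (n⁻¹ • ∑ g, a g X) * (n⁻¹ • ∑ g, a g X) = _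
    rw [star_smul, hconj, smul_mul_smul_comm, star_sum, Finset.sum_mul_sum]
  have h5 : ∀ g, ∑ h, ω (star (a g X) * a h X) = ∑ k, ω (star X * a k X) := by
    intro g
    have e1 : ∀ h, ω (star (a g X) * a h X) = ω (star X * a (g⁻¹ * h) X) := by
      intro h
      have e2 : star (a g X) * a h X = a g (star X * a (g⁻¹ * h) X) := by
        rw [map_mul, map_star, ← hmul, mul_inv_cancel_left]
      rw [e2, hω, omg_act]
    simp only [e1]
    exact Equiv.sum_comp (Equiv.mulLeft g⁻¹) (fun k => ω (star X * a k X))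
  have h6 : ω (star (avg a X) * avg a X) = n⁻¹ * ∑ k, ω (star X * a k X) := by
    rw [h4, map_smul, map_sum]
    simp only [map_sum, h5, Finset.sum_const, Finset.card_univ]
    rw [← Nat.cast_smul_eq_nsmul ℂ, smul_eq_mul, smul_eq_mul, ← hn]
    field_simp
  rw [← h2, h3, h6, ← mul_assoc, mul_inv_cancel₀ hn0, one_mul]

variable {B : ℕ → Blk F}
variable (hc : ∀ i j, i ≠ j → ∀ s ∈ (B i).orb a, ∀ t ∈ (B j).orb a, s * t = t * s)

omit [Fintype G] in
lemma ag_rsmul (g : G) (r : ℝ) (y : F) : a g (r • y) = r • a g y := by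
  rw [← Complex.coe_smul, map_smul, Complex.coe_smul]

omit [Fintype G] in
/-- The operators `Q` are contractions in the sense needed for the Fejer inequality. -/
lemma QQ_pos {ω : F →ₗ[ℂ] ℂ} (h : IsSt ω) (g : G) (i : ℕ) (y : F) :
    0 ≤ (ω (star y * ((1 - QQ a B g i * star (QQ a B g i)) * y))).re := by
  have hc1 : ∑ c, wt c • (star (xx B i c) * xx B i c) = 1 := (B i).col'
  have hc2 : ∑ c, wt c • (star (a g (xx B i c)) * a g (xx B i c)) = 1 := by
    have e : ∀ c, wt c • (star (a g (xx B i c)) * a g (xx B i c))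
        = a g (wt c • (star (xx B i c) * xx B i c)) := by
      intro c
      rw [ag_rsmul, map_mul, map_star]
    simp only [e]
    rw [← map_sum, hc1, map_one]
  have hcs := col_sq wt (xx B i) (fun c => a g (xx B i c)) hc1 hc2 (QQ a B g i) rfl
  rw [hcs, Finset.sum_mul, Finset.mul_sum, map_sum, Complex.re_sum]
  refine Finset.sum_nonneg fun c _ => ?_
  set E := xx B i c - a g (xx B i c) * star (QQ a B g i) with hE
  have e : star y * (wt c • (star E * E) * y) = ((wt c : ℝ) : ℂ) • (star (E * y) * (E * y)) := by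
    rw [Complex.coe_smul, smul_mul_assoc, mul_smul_comm, star_mul]
    congr 1
    noncomm_ring
  rw [e, map_smul, smul_eq_mul, Complex.re_ofReal_mul]
  exact mul_nonneg (wt_nonneg c) (h.pos _)

/-- The theorem. -/
theorem no_char_fix (h1 : ∀ x, a 1 x = x) (hmul : ∀ g h x, a (g * h) x = a g (a h x))
    (hc : ∀ i j, i ≠ j → ∀ s ∈ (B i).orb a, ∀ t ∈ (B j).orb a, s * t = t * s) :
    IsEmpty (fixSub a →⋆ₐ[ℂ] ℂ) := by
  classical
  refine ⟨fun χ => ?_⟩
  set ω := omg hmul χ with hω
  have hSt : IsSt ω := omg_st h1 hmul χ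
  set n : ℝ := (Fintype.card G : ℝ) with hn
  have hn0 : 0 < n := by
    rw [hn]
    exact_mod_cast Fintype.card_pos
  -- the correlation bound for the state
  have hD : ∀ i m, it (xx B) wt i m (fun X => ‖ω X‖ ^ 2) ≤ (1 / 2) ^ m := by
    intro i m
    have := corr_bound h1 hc hSt m i 1 1
    simp only [star_one, one_mul, mul_one, hSt.one, Complex.one_re] at this
    exact this
  -- the identity
  let Lr : ℝ →ₗ[ℝ] ℂ :=
    { toFun := fun r => (n : ℂ) * (r : ℂ)
      map_add' := fun r s => by push_cast; ring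
      map_smul' := fun r s => by
        show (n : ℂ) * ((r • s : ℝ) : ℂ) = r • ((n : ℂ) * (s : ℂ))
        rw [smul_eq_mul, Complex.real_smul]
        push_cast
        ring }
  have hsum : ∀ i m, ∑ g, ω (PP (QQ a B g) i m)
      = (n : ℂ) * ((it (xx B) wt i m (fun X => ‖ω X‖ ^ 2) : ℝ) : ℂ) := by
    intro i m
    have e1 : ∀ g, ω (PP (QQ a B g) i m) = it (xx B) wt i m (fun X => ω (star X * a g X)) := by
      intro g
      rw [← it_eq_PP h1 hmul hc]
      exact it_map (ω.restrictScalars ℝ) m i _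
    simp only [e1]
    rw [← it_sum]
    have e2 : (fun X => ∑ g, ω (star X * a g X)) = fun X => Lr (‖ω X‖ ^ 2) := by
      funext X
      rw [← omg_id hmul χ X]
      show _ = (n : ℂ) * _
      rw [hn]
      push_cast
      rfl
    rw [e2]
    exact (it_map Lr m i _).symm
  -- the bound for the partial sums
  have hv : ∀ i L, ∑ g, (ω (vv (QQ a B g) i L)).re ≤ 2 * n := by
    intro i L
    have e1 : ∀ g, (ω (vv (QQ a B g) i L)).re
        = ∑ m ∈ Finset.range (L + 1), (ω (PP (QQ a B g) i m)).re := by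
      intro g
      rw [vv_eq, map_sum, Complex.re_sum]
      refine Finset.sum_congr rfl fun m _ => ?_
      rw [hSt.star_map, Complex.conj_re]
    simp only [e1]
    rw [Finset.sum_comm]
    have e2 : ∀ m, ∑ g, (ω (PP (QQ a B g) i m)).re
        = n * it (xx B) wt i m (fun X => ‖ω X‖ ^ 2) := by
      intro m
      rw [← Complex.re_sum, hsum]
      simp
    simp only [e2]
    rw [← Finset.mul_sum]
    have h3 : ∑ m ∈ Finset.range (L + 1), it (xx B) wt i m (fun X => ‖ω X‖ ^ 2) ≤ 2 :=
      (Finset.sum_le_sum fun m _ => hD i m).trans (sum_geometric_two_le _)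
    nlinarith
  -- the bound for the sums of the entries
  have hT : ∀ L i, ∑ g, (ω (SS (QQ a B g) i L)).re ≤ n + 3 * n * L := by
    intro L
    induction L with
    | zero =>
      intro i
      simp only [SS, hSt.one, Complex.one_re, Finset.sum_const, Finset.card_univ]
      simp [hn]
    | succ L ih =>
      intro i
      have e1 : ∀ g, (ω (SS (QQ a B g) i (L + 1))).re = (ω (SS (QQ a B g) (i + 1) L)).re
          + 2 * (ω (vv (QQ a B g) i (L + 1))).re - 1 := by
        intro g
        show (ω (SS _ (i + 1) L + vv _ i (L + 1) + star (vv _ i (L + 1)) - 1)).re = _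
        rw [map_sub, map_add, map_add, hSt.star_map, hSt.one]
        simp only [Complex.sub_re, Complex.add_re, Complex.conj_re, Complex.one_re]
        ring
      simp only [e1]
      rw [Finset.sum_sub_distrib, Finset.sum_add_distrib, ← Finset.mul_sum]
      have h3 := ih (i + 1)
      have h4 := hv i (L + 1)
      have h5 : ∑ _g : G, (1 : ℝ) = n := by
        simp [hn]
      rw [h5]
      push_cast
      nlinarith
  -- the lower bound
  have hQ1 : QQ a B 1 = fun _ => (1 : F) := by
    funext i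
    show ∑ c, wt c • (star (xx B i c) * a 1 (xx B i c)) = 1
    simp only [h1]
    exact (B i).col'
  have hlow : ∀ L : ℕ, ((L : ℝ) + 1) ^ 2 ≤ ∑ g, (ω (SS (QQ a B g) 0 L)).re := by
    intro L
    have h3 : (ω (SS (QQ a B 1) 0 L)).re ≤ ∑ g, (ω (SS (QQ a B g) 0 L)).re :=
      Finset.single_le_sum (f := fun g => (ω (SS (QQ a B g) 0 L)).re)
        (fun g _ => fejer_nonneg _ hSt (fun i y => QQ_pos hSt g i y) 0 L) (Finset.mem_univ _)
    refine le_trans (le_of_eq ?_) h3
    rw [hQ1, SS_one, map_smul, hSt.one, smul_eq_mul, mul_one]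
    have e : ((L : ℂ) + 1) ^ 2 = (((L : ℝ) + 1) ^ 2 : ℝ) := by
      push_cast
      ring
    rw [e, Complex.ofReal_re]
  -- the contradiction
  set L : ℕ := 3 * Fintype.card G with hL
  have hLn : (L : ℝ) = 3 * n := by
    rw [hL, hn]
    push_cast
    ring
  have h3 := (hlow L).trans (hT L 0)
  rw [hLn] at h3
  nlinarith

end Main

end

end Vale.Agent.Lib.P095
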