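import Vale.Agent.Lib.P095.Fix

/-! A map from `Z` to the iterated ultrapower, commuting with `A` and fixed by the action. -/

universe u v

namespace Vale.Agent.Lib.P095

open Vale.Agent.Lib.P101 Filter Topology BoundedContinuousFunction

noncomputable section

section Approx

variable {Z F : Type*} [CStarAlgebra Z] [CStarAlgebra F] {ω : Ultrafilter ℕ}
variable {C : ℕ → Type*} [∀ k, Ring (C k)] [∀ k, StarRing (C k)] [∀ k, Algebra ℂ (C k)]

/-- Asymptotic homomorphisms give homomorphisms into the ultrapower, with control of the values. -/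
theorem hom_of_approxE (hω : (ω : Filter ℕ) ≤ cofinite) (ι : ∀ k, C k →⋆ₐ[ℂ] Z)
    (ρ : ∀ k, C k →⋆ₐ[ℂ] F) (hb : ∀ k t, ‖ρ k t‖ ≤ ‖ι k t‖)
    (hd : ∀ (z : Z) (ε : ℝ), 0 < ε → ∃ k0, ∀ k, k0 ≤ k → ∃ t : C k, ‖ι k t - z‖ < ε) :
    ∃ ψ : Z →⋆ₐ[ℂ] AOmega F ω, ∀ z, ∃ (t : ∀ m, C m) (u : ℕ →ᵇ F), (∀ m, u m = ρ m (t m)) ∧
      ψ z = qk F ω u := by
  classical
  have hω' : (ω : Filter ℕ) ≤ atTop := by
    rw [← Nat.cofinite_eq_atTop]
    exact hω
  let Good : Z → (ℕ →ᵇ F) → Prop := fun z u =>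
    ∃ t : ∀ m, C m, (∀ m, u m = ρ m (t m)) ∧ Tendsto (fun m => ι m (t m)) atTop (𝓝 z)
  have hex : ∀ z, ∃ u, Good z u := by
    intro z
    have hchoice : ∀ m, ∃ t : C m, ‖ι m t - z‖ <
        Metric.infDist z (Set.range (ι m)) + 1 / ((m : ℝ) + 1) := by
      intro m
      have hpos : (0 : ℝ) < 1 / ((m : ℝ) + 1) := by positivity
      have h1 : Metric.infDist z (Set.range (ι m)) <
          Metric.infDist z (Set.range (ι m)) + 1 / ((m : ℝ) + 1) := by linarith
      obtain ⟨y, ⟨t, rfl⟩, hy⟩ := (Metric.infDist_lt_iff (show (Set.range (ι m)).Nonempty from ⟨ι m 0, 0, rfl⟩)).1 h1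
      exact ⟨t, by rw [dist_comm, dist_eq_norm] at hy; exact hy⟩
    choose t ht using hchoice
    have hlim : Tendsto (fun m => ι m (t m)) atTop (𝓝 z) := by
      rw [tendsto_iff_norm_sub_tendsto_zero, Metric.tendsto_atTop]
      intro ε hε
      obtain ⟨k0, hk0⟩ := hd z (ε / 2) (half_pos hε)
      obtain ⟨N, hN⟩ := exists_nat_one_div_lt (half_pos hε)
      refine ⟨max k0 N, fun m hm => ?_⟩
      obtain ⟨t', ht'⟩ := hk0 m (le_trans (le_max_left _ _) hm)
      have h1 : Metric.infDist z (Set.range (ι m)) ≤ dist z (ι m t') :=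
        Metric.infDist_le_dist_of_mem ⟨t', rfl⟩
      rw [dist_comm, dist_eq_norm] at h1
      have h2 : 1 / ((m : ℝ) + 1) ≤ 1 / ((N : ℝ) + 1) := by
        apply one_div_le_one_div_of_le (by positivity)
        have : (N : ℝ) ≤ m := by exact_mod_cast le_trans (le_max_right _ _) hm
        linarith
      have h3 := ht m
      rw [Real.dist_eq, sub_zero, abs_of_nonneg (norm_nonneg _)]
      linarith
    obtain ⟨B, hB⟩ := (hlim.norm).bddAbove_range
    have hB' : ∀ m, ‖ρ m (t m)‖ ≤ B := fun m =>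
      (hb m _).trans (hB ⟨m, rfl⟩)
    exact ⟨ofNormedAddCommGroupDiscrete (fun m => ρ m (t m)) B hB', t, fun _ => rfl, hlim⟩
  have huniq : ∀ z u u', Good z u → Good z u' → qk F ω u = qk F ω u' := by
    rintro z u u' ⟨t, ht1, ht2⟩ ⟨t', ht1', ht2'⟩
    rw [qk_eq_iff]
    have h1 : Tendsto (fun m => ‖ι m (t m) - ι m (t' m)‖) atTop (𝓝 0) := by
      have := (ht2.sub ht2').norm
      simpa using this
    refine squeeze_zero (fun _ => norm_nonneg _) (fun m => ?_) (h1.mono_left hω')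
    rw [ht1, ht1', ← map_sub, ← map_sub]
    exact hb m _
  choose L hL using hex
  have hadd : ∀ z z', Good (z + z') (L z + L z') := by
    intro z z'
    obtain ⟨t, ht1, ht2⟩ := hL z
    obtain ⟨t', ht1', ht2'⟩ := hL z'
    refine ⟨fun m => t m + t' m, fun m => ?_, ?_⟩
    · rw [map_add, ← ht1, ← ht1']
      rfl
    · simpa only [map_add] using ht2.add ht2'
  have hmul : ∀ z z', Good (z * z') (L z * L z') := by
    intro z z'
    obtain ⟨t, ht1, ht2⟩ := hL z
    obtain ⟨t', ht1', ht2'⟩ := hL z'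
    refine ⟨fun m => t m * t' m, fun m => ?_, ?_⟩
    · rw [map_mul, ← ht1, ← ht1']
      rfl
    · simpa only [map_mul] using ht2.mul ht2'
  have hstar : ∀ z, Good (star z) (star (L z)) := by
    intro z
    obtain ⟨t, ht1, ht2⟩ := hL z
    refine ⟨fun m => star (t m), fun m => ?_, ?_⟩
    · rw [map_star, ← ht1]
      rfl
    · simpa only [map_star] using ht2.star
  have halg : ∀ r : ℂ, Good (algebraMap ℂ Z r) (algebraMap ℂ _ r) := by
    intro r
    refine ⟨fun m => algebraMap ℂ _ r, fun m => ?_, ?_⟩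
    · rw [AlgHomClass.commutes]
      rfl
    · simp only [AlgHomClass.commutes]
      exact tendsto_const_nhds
  let ψ : Z → AOmega F ω := fun z => qk F ω (L z)
  have ψ_add : ∀ z z', ψ (z + z') = ψ z + ψ z' := fun z z' => by
    show qk F ω _ = qk F ω _ + qk F ω _
    rw [← map_add]
    exact huniq _ _ _ (hL _) (hadd z z')
  have ψ_mul : ∀ z z', ψ (z * z') = ψ z * ψ z' := fun z z' => by
    show qk F ω _ = qk F ω _ * qk F ω _
    rw [← map_mul]
    exact huniq _ _ _ (hL _) (hmul z z')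
  have ψ_star : ∀ z, ψ (star z) = star (ψ z) := fun z => by
    show qk F ω _ = star (qk F ω _)
    rw [star_qk]
    exact huniq _ _ _ (hL _) (hstar z)
  have ψ_alg : ∀ r, ψ (algebraMap ℂ Z r) = algebraMap ℂ _ r := fun r => by
    have h1 : qk F ω (algebraMap ℂ (ℕ →ᵇ F) r) = algebraMap ℂ (AOmega F ω) r :=
      AlgHomClass.commutes (qkH (A := F) (ω := ω)) r
    rw [← h1]
    exact huniq _ _ _ (hL _) (halg r)
  refine ⟨{ toFun := ψ
            map_one' := ?_
            map_mul' := ψ_mul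
            map_zero' := ?_
            map_add' := ψ_add
            commutes' := ψ_alg
            map_star' := ψ_star }, fun z => ?_⟩
  · have := ψ_alg 1
    rwa [map_one, map_one] at this
  · have := ψ_alg 0
    rwa [map_zero, map_zero] at this
  · obtain ⟨t, ht1, _⟩ := hL z
    exact ⟨t, L z, ht1, rfl⟩

end Approx

section Main

variable {A Z : Type u} [CStarAlgebra A] [CStarAlgebra Z] {ω : Ultrafilter ℕ}
variable {G : Type v} [Group G] {a : G → A →⋆ₐ[ℂ] A}

/-- A map from `Z` to the iterated ultrapower, commuting with `A` and fixed by the action of a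
countable locally finite group. -/
theorem exists_psi [TopologicalSpace.SeparableSpace A] [Countable G]
    (hlf : ∀ s : Finset G, Finite (Subgroup.closure (s : Set G)))
    (hω : (ω : Filter ℕ) ≤ cofinite) (hZ : IsJiangSu Z) (hchar : IsEmpty (FOmega A ω →⋆ₐ[ℂ] ℂ))
    (h1 : ∀ x, a 1 x = x) (hmul : ∀ g h x, a (g * h) x = a g (a h x)) :
    ∃ ψ : Z →⋆ₐ[ℂ] OO A ω, (∀ b z, ddH (ω := ω) b * ψ z = ψ z * ddH b) ∧
      ∀ g z, mapOO (a g) (ψ z) = ψ z := by
  classical
  have := hZ.separable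
  obtain ⟨p, q, ι, hpq, hinj, hmono, hdense⟩ := hZ.limit
  obtain ⟨e, he⟩ := exists_surjective_nat G
  let H : ℕ → Subgroup G := fun k => Subgroup.closure (((Finset.range (k + 1)).image e : Finset G) : Set G)
  have hH : ∀ i k, i ≤ k → e i ∈ H k := fun i k hik =>
    Subgroup.subset_closure (by
      simp only [Finset.coe_image, Set.mem_image, Finset.coe_range]
      exact ⟨i, by simpa using Nat.lt_succ_of_le hik, rfl⟩)
  let a' : ∀ k, H k → A →⋆ₐ[ℂ] A := fun k g => a g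
  have hρ : ∀ k, Nonempty (DP (p k) (q k) →⋆ₐ[ℂ] FixF ω (a' k)) := by
    intro k
    have : Finite (H k) := hlf _
    have : Fintype (H k) := Fintype.ofFinite _
    exact exists_hom_FixF (a := a' k) hω hchar (fun x => h1 x) (fun g h x => hmul g h x)
      (hpq k).1 (hpq k).2.1 (hpq k).2.2
  let ρ₀ : ∀ k, DP (p k) (q k) →⋆ₐ[ℂ] FixF ω (a' k) := fun k => (hρ k).some
  let ρ : ∀ k, DP (p k) (q k) →⋆ₐ[ℂ] AOmega A ω := fun k => (FixF ω (a' k)).subtype.comp (ρ₀ k)
  have hb : ∀ k t, ‖ρ k t‖ ≤ ‖ι k t‖ := fun k t => dp_norm_le (ι k) (hinj k) (ρ k) t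
  have hd : ∀ (z : Z) (ε : ℝ), 0 < ε → ∃ k0, ∀ k, k0 ≤ k → ∃ t : DP (p k) (q k), ‖ι k t - z‖ < ε := by
    intro z ε hε
    obtain ⟨y, hy, hzy⟩ := Metric.dense_iff.1 hdense z ε hε
    obtain ⟨k0, hk0⟩ := Set.mem_iUnion.1 hzy
    refine ⟨k0, fun k hk => ?_⟩
    obtain ⟨t, ht⟩ := hmono k0 k hk hk0
    refine ⟨t, ?_⟩
    rw [ht, ← dist_eq_norm]
    exact Metric.mem_ball.1 hy
  obtain ⟨ψ, hψ⟩ := hom_of_approxE (C := fun k => DP (p k) (q k)) hω ι ρ hb hd
  refine ⟨ψ, fun b z => ?_, fun g z => ?_⟩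
  · obtain ⟨t, u, hu1, hu2⟩ := hψ z
    rw [hu2]
    show qkH (constH (diagH b)) * qkH u = qkH u * qkH (constH (diagH b))
    rw [← map_mul, ← map_mul]
    congr 1
    ext n : 1
    show diagH b * u n = u n * diagH b
    have hmem : u n ∈ FOmegaSub A ω := by
      rw [hu1]
      exact (ρ₀ n (t n)).2.1
    exact inclF_comm (⟨u n, hmem⟩ : FOmega A ω) b
  · obtain ⟨t, u, hu1, hu2⟩ := hψ z
    rw [hu2]
    show mapO (mapO (a g)) (qkH u) = qkH u
    rw [mapO_qkH, qkH_apply, qkH_apply, qk_eq_iff]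
    obtain ⟨i, rfl⟩ := he g
    have hev : ∀ᶠ n in (ω : Filter ℕ), ‖compH (mapO (a (e i))) u n - u n‖ = 0 := by
      have : ∀ᶠ n in (ω : Filter ℕ), i ≤ n := hω (by
        rw [Nat.cofinite_eq_atTop]
        exact eventually_ge_atTop i)
      filter_upwards [this] with n hn
      have h2 : mapO (a' n ⟨e i, hH i n hn⟩) (ρ₀ n (t n)).1 = (ρ₀ n (t n)).1 := (ρ₀ n (t n)).2.2 _
      show ‖mapO (a (e i)) (u n) - u n‖ = 0
      rw [hu1]
      have h3 : mapO (a (e i)) (ρ n (t n)) = ρ n (t n) := h2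
      rw [h3, sub_self, norm_zero]
    exact (tendsto_const_nhds (x := (0 : ℝ))).congr' (hev.mono fun n hn => hn.symm)

end Main

end

end Vale.Agent.Lib.P095
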