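import Vale.Agent.Lib.P095.DPBlock
import Vale.Agent.Lib.P101.ZFinal

/-! Reindexing for star-subalgebras of the ultrapower, and the fixed point algebra of `F_ω(A)`. -/

universe u v

namespace Vale.Agent.Lib.P095

open Vale.Agent.Lib.P101 Filter Topology BoundedContinuousFunction

noncomputable section

variable {A : Type u} [CStarAlgebra A] {ω : Ultrafilter ℕ}

/-- A star-subalgebra of the ultrapower admitting reindexing. -/
def Reind (Sub : StarSubalgebra ℂ (AOmega A ω)) : Prop :=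
  ∀ (T X Y : Finset (ℕ →ᵇ A)),
    (∀ t ∈ T, Tendsto (fun n => ‖t n‖) (ω : Filter ℕ) (𝓝 0)) →
    (∀ x ∈ X, qk A ω x ∈ Sub) →
    ∃ m : ℕ → ℕ, (∀ t ∈ T, qk A ω (rei m t) = 0) ∧ (∀ x ∈ X, qk A ω (rei m x) ∈ Sub) ∧
      (∀ x ∈ X, ∀ y ∈ Y, qk A ω y * qk A ω (rei m x) = qk A ω (rei m x) * qk A ω y)

theorem reind_FOmega [TopologicalSpace.SeparableSpace A] (hω : (ω : Filter ℕ) ≤ cofinite) :
    Reind (FOmegaSub A ω) := by
  intro T X Y hT hX
  obtain ⟨m, hm1, hm2, hm3⟩ := exists_reindex hω T X Y hT (fun x hx a => central_of_mem (hX x hx) a)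
  refine ⟨m, fun t ht => qk_eq_zero.2 (hm1 t ht), fun x hx => mem_of_central (hm2 x hx), ?_⟩
  intro x hx y hy
  rw [← map_mul, ← map_mul, qk_eq_iff]
  refine (hm3 x hx y hy).congr fun k => ?_
  rw [norm_sub_rev]
  rfl

section Copy

variable {Sub : StarSubalgebra ℂ (AOmega A ω)}

/-- The inclusion as a ring homomorphism. -/
def coeS (Sub : StarSubalgebra ℂ (AOmega A ω)) : Sub →+* AOmega A ω := (Sub.subtype : Sub →⋆ₐ[ℂ] AOmega A ω)

@[simp] lemma coeS_apply (x : Sub) : coeS Sub x = (x : AOmega A ω) := rfl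

lemma coeS_star (u : Sub) : coeS Sub (star u) = star (coeS Sub u) := rfl

lemma coeS_inj : Function.Injective (coeS Sub) := Subtype.val_injective

/-- The general copying statement. -/
theorem Reind.copy (hS : Reind Sub) (T : Finset (ℕ →ᵇ A))
    (hT : ∀ t ∈ T, qk A ω t = 0) (X0 : Finset (ℕ →ᵇ A)) (hX0 : ∀ x ∈ X0, qk A ω x ∈ Sub)
    (W : Set Sub) (hW : W.Finite) :
    ∃ m : ℕ → ℕ, (∀ t ∈ T, reiq (ω := ω) m t = 0) ∧
      ∀ x ∈ X0, ∃ r : Sub, coeS Sub r = reiq m x ∧ r ∈ Set.centralizer W ∧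
        star r ∈ Set.centralizer W := by
  classical
  have hl : ∀ y : Sub, ∃ u : ℕ →ᵇ A, qk A ω u = coeS Sub y := fun y => qk_surjective A ω _
  choose L hL using hl
  let X : Finset (ℕ →ᵇ A) := X0 ∪ X0.image star
  have hX : ∀ x ∈ X, qk A ω x ∈ Sub := by
    intro x hx
    simp only [X, Finset.mem_union, Finset.mem_image] at hx
    rcases hx with hx | ⟨y, hy, rfl⟩
    · exact hX0 x hx
    · rw [← star_qk]
      exact star_mem (hX0 y hy)
  let Y : Finset (ℕ →ᵇ A) := hW.toFinset.image L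
  obtain ⟨m, hm1, hm2, hm3⟩ := hS T X Y (fun t ht => qk_eq_zero.1 (hT t ht)) hX
  refine ⟨m, hm1, fun x hx => ?_⟩
  have hxX : x ∈ X := Finset.mem_union_left _ hx
  have hsX : star x ∈ X := Finset.mem_union_right _ (Finset.mem_image_of_mem _ hx)
  have hcomm : ∀ u ∈ X, ∀ w ∈ W, ∀ r : Sub, coeS Sub r = reiq m u → w * r = r * w := by
    intro u hu w hw r hr
    apply coeS_inj
    rw [map_mul, map_mul, hr, ← hL w]
    exact hm3 u hu (L w) (Finset.mem_image_of_mem _ (hW.mem_toFinset.2 hw))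
  refine ⟨⟨reiq m x, hm2 x hxX⟩, rfl, ?_, ?_⟩
  · rw [Set.mem_centralizer_iff]
    intro w hw
    exact hcomm x hxX w hw _ rfl
  · rw [Set.mem_centralizer_iff]
    intro w hw
    refine hcomm (star x) hsX w hw _ ?_
    rw [reiq_star]
    rfl

/-- The copying property for the tuple invariant. -/
theorem copyT_of_reind (hS : Reind Sub) {κ : Type*} [Fintype κ] [DecidableEq κ] (c₀ : κ) :
    CopyT κ Sub := by
  classical
  intro M x s s₁ v hI W hW
  have hl : ∀ y : Sub, ∃ u : ℕ →ᵇ A, qk A ω u = coeS Sub y := fun y => qk_surjective A ω _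
  choose L hL using hl
  have hres0 : ∀ i, qk A ω (residT (fun c => L (x c)) (L s) (L s₁) (fun l => L (v l)) i) = 0 := by
    intro i
    rw [map_residT (qk A ω) (fun a => (star_qk a).symm)]
    simp only [hL]
    rw [← map_residT (coeS Sub) coeS_star, (tInv_iff_resid c₀).1 hI i, map_zero]
  let T : Finset (ℕ →ᵇ A) :=
    Finset.univ.image (residT (fun c => L (x c)) (L s) (L s₁) (fun l => L (v l)))
  have hT : ∀ t ∈ T, qk A ω t = 0 := by
    intro t ht
    simp only [T, Finset.mem_image, Finset.mem_univ, true_and] at ht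
    obtain ⟨i, rfl⟩ := ht
    exact hres0 i
  let X0 : Finset (ℕ →ᵇ A) := (Finset.univ.image (fun c => L (x c))) ∪ {L s, L s₁} ∪
    Finset.univ.image (fun l => L (v l))
  have hX0 : ∀ u ∈ X0, qk A ω u ∈ Sub := by
    intro u hu
    simp only [X0, Finset.mem_union, Finset.mem_insert, Finset.mem_singleton, Finset.mem_image,
      Finset.mem_univ, true_and] at hu
    rcases hu with (⟨c, rfl⟩ | rfl | rfl) | ⟨l, rfl⟩ <;> (rw [hL]; exact SetLike.coe_mem _)
  obtain ⟨m, hm1, hm2⟩ := hS.copy T hT X0 hX0 W hW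
  choose! r hr1 hr2 hr3 using hm2
  have hxX : ∀ c, L (x c) ∈ X0 := fun c => by
    simp only [X0, Finset.mem_union, Finset.mem_image, Finset.mem_univ, true_and]
    exact Or.inl (Or.inl ⟨c, rfl⟩)
  have hsX0 : L s ∈ X0 := by simp [X0]
  have hs₁X : L s₁ ∈ X0 := by simp [X0]
  have hvX : ∀ l, L (v l) ∈ X0 := fun l => by
    simp only [X0, Finset.mem_union, Finset.mem_image, Finset.mem_univ, true_and]
    exact Or.inr ⟨l, rfl⟩
  refine ⟨fun c => r (L (x c)), r (L s), r (L s₁), fun l => r (L (v l)), ?_,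
    fun c => hr2 _ (hxX c), fun c => hr3 _ (hxX c),
    hr2 _ hsX0, fun l => hr2 _ (hvX l), fun l => hr3 _ (hvX l)⟩
  rw [tInv_iff_resid c₀]
  intro i
  apply coeS_inj
  rw [map_residT (coeS Sub) coeS_star, map_zero]
  simp only [hr1 _ (hxX _), hr1 _ hsX0, hr1 _ hs₁X, hr1 _ (hvX _)]
  rw [← map_residT (reiq m) (reiq_star m)]
  exact hm1 _ (Finset.mem_image_of_mem _ (Finset.mem_univ _))

/-- The copying property for the invariant. -/
theorem copyInv_of_reind (hS : Reind Sub) : CopyInv Sub := by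
  classical
  intro M x s s₁ v hI W hW
  have hl : ∀ y : Sub, ∃ u : ℕ →ᵇ A, qk A ω u = coeS Sub y := fun y => qk_surjective A ω _
  choose L hL using hl
  have hres0 : ∀ i, qk A ω (resid (L x) (L s) (L s₁) (fun l => L (v l)) i) = 0 := by
    intro i
    rw [map_resid (qk A ω) (fun a => (star_qk a).symm)]
    simp only [hL]
    rw [← map_resid (coeS Sub) coeS_star, isInv_iff_resid.1 hI i, map_zero]
  let T : Finset (ℕ →ᵇ A) := Finset.univ.image (resid (L x) (L s) (L s₁) (fun l => L (v l)))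
  have hT : ∀ t ∈ T, qk A ω t = 0 := by
    intro t ht
    simp only [T, Finset.mem_image, Finset.mem_univ, true_and] at ht
    obtain ⟨i, rfl⟩ := ht
    exact hres0 i
  let X0 : Finset (ℕ →ᵇ A) := {L x, L s, L s₁} ∪ Finset.univ.image (fun l => L (v l))
  have hX0 : ∀ u ∈ X0, qk A ω u ∈ Sub := by
    intro u hu
    simp only [X0, Finset.mem_union, Finset.mem_insert, Finset.mem_singleton, Finset.mem_image,
      Finset.mem_univ, true_and] at hu
    rcases hu with (rfl | rfl | rfl) | ⟨l, rfl⟩ <;> (rw [hL]; exact SetLike.coe_mem _)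
  obtain ⟨m, hm1, hm2⟩ := hS.copy T hT X0 hX0 W hW
  choose! r hr1 hr2 hr3 using hm2
  have hxX : L x ∈ X0 := by simp [X0]
  have hsX0 : L s ∈ X0 := by simp [X0]
  have hs₁X : L s₁ ∈ X0 := by simp [X0]
  have hvX : ∀ l, L (v l) ∈ X0 := fun l => by
    simp only [X0, Finset.mem_union, Finset.mem_image, Finset.mem_univ, true_and]
    exact Or.inr ⟨l, rfl⟩
  refine ⟨r (L x), r (L s), r (L s₁), fun l => r (L (v l)), ?_, hr2 _ hxX, hr3 _ hxX,
    hr2 _ hsX0, hr3 _ hsX0, fun l => hr2 _ (hvX l), fun l => hr3 _ (hvX l)⟩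
  rw [isInv_iff_resid]
  intro i
  apply coeS_inj
  rw [map_resid (coeS Sub) coeS_star, map_zero]
  simp only [hr1 _ hxX, hr1 _ hsX0, hr1 _ hs₁X, hr1 _ (hvX _)]
  rw [← map_resid (reiq m) (reiq_star m)]
  exact hm1 _ (Finset.mem_image_of_mem _ (Finset.mem_univ _))

/-- The copying property. -/
theorem copyProp_of_reind (hS : Reind Sub) : CopyProp Sub := by
  classical
  intro α ι _ _ D W hW
  have hl : ∀ y : Sub, ∃ u : ℕ →ᵇ A, qk A ω u = coeS Sub y := fun y => qk_surjective A ω _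
  choose L hL using hl
  let X0 : Finset (ℕ →ᵇ A) := (Finset.univ.image fun a => L (D.z a)) ∪
    (Finset.univ.image fun i => L (D.c i)) ∪ (Finset.univ.image fun i => L (D.d i))
  have hX0 : ∀ u ∈ X0, qk A ω u ∈ Sub := by
    intro u hu
    simp only [X0, Finset.mem_union, Finset.mem_image, Finset.mem_univ, true_and] at hu
    rcases hu with (⟨a, rfl⟩ | ⟨a, rfl⟩) | ⟨a, rfl⟩ <;> (rw [hL]; exact SetLike.coe_mem _)
  let t0 : ℕ →ᵇ A := ∑ i, L (D.c i) * L (D.z (D.j i)) * L (D.d i) - 1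
  have ht0 : qk A ω t0 = 0 := by
    have h1 : coeS Sub (∑ i, D.c i * D.z (D.j i) * D.d i) = 1 := by
      rw [D.rel, map_one]
    simp only [t0, map_sub, map_sum, map_mul, map_one, hL]
    rw [sub_eq_zero, ← h1]
    simp only [map_sum, map_mul]
  let T : Finset (ℕ →ᵇ A) := (Finset.univ.image fun a => L (D.z a) * L (D.z a)) ∪ {t0}
  have hT : ∀ t ∈ T, qk A ω t = 0 := by
    intro t ht
    simp only [T, Finset.mem_union, Finset.mem_image, Finset.mem_univ, true_and,
      Finset.mem_singleton] at ht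
    rcases ht with ⟨a, rfl⟩ | rfl
    · rw [map_mul, hL, ← map_mul, D.sq a, map_zero]
    · exact ht0
  obtain ⟨m, hm1, hm2⟩ := hS.copy T hT X0 hX0 W hW
  choose! r hr1 hr2 hr3 using hm2
  have hzX : ∀ a, L (D.z a) ∈ X0 := fun a => by
    simp only [X0, Finset.mem_union, Finset.mem_image, Finset.mem_univ, true_and]
    exact Or.inl (Or.inl ⟨a, rfl⟩)
  have hcX : ∀ i, L (D.c i) ∈ X0 := fun i => by
    simp only [X0, Finset.mem_union, Finset.mem_image, Finset.mem_univ, true_and]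
    exact Or.inl (Or.inr ⟨i, rfl⟩)
  have hdX : ∀ i, L (D.d i) ∈ X0 := fun i => by
    simp only [X0, Finset.mem_union, Finset.mem_image, Finset.mem_univ, true_and]
    exact Or.inr ⟨i, rfl⟩
  let D' : CData Sub α ι :=
    { z := fun a => r (L (D.z a))
      j := D.j
      c := fun i => r (L (D.c i))
      d := fun i => r (L (D.d i))
      sq := by
        intro a
        apply coeS_inj
        rw [map_mul, hr1 _ (hzX a), map_zero, ← map_mul]
        exact hm1 _ (Finset.mem_union_left _ (Finset.mem_image_of_mem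
          (fun a => L (D.z a) * L (D.z a)) (Finset.mem_univ a)))
      rel := by
        apply coeS_inj
        have h1 : reiq (ω := ω) m t0 = 0 :=
          hm1 _ (Finset.mem_union_right _ (Finset.mem_singleton_self _))
        simp only [t0, map_sub, map_sum, map_mul, map_one] at h1
        rw [sub_eq_zero] at h1
        simp only [map_sum, map_mul, map_one, hr1 _ (hzX _), hr1 _ (hcX _), hr1 _ (hdX _)]
        exact h1 }
  refine ⟨D', ?_⟩
  intro y hy
  simp only [CData.V, Set.mem_union, Set.mem_range] at hy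
  rcases hy with (((((⟨a, rfl⟩ | ⟨a, rfl⟩) | ⟨a, rfl⟩) | ⟨a, rfl⟩) | ⟨a, rfl⟩) | ⟨a, rfl⟩)
  · exact hr2 _ (hzX a)
  · exact hr3 _ (hzX a)
  · exact hr2 _ (hcX a)
  · exact hr3 _ (hcX a)
  · exact hr2 _ (hdX a)
  · exact hr3 _ (hdX a)

end Copy

end

end Vale.Agent.Lib.P095
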